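import Vale.Agent.P286EX10.DO
import Vale.Agent.P286EK.Defs

/-!
# The extension `D[ε] ⋊ W`
-/

set_option linter.all false

namespace Vale.Agent.P286EX

open Vale.Agent.P286.H847 Vale.Agent.P286.H710 Vale.Agent.P286EK

noncomputable section

/-- An involution. -/
structure Ivl (D : Type) [Ring D] [Algebra ℂ D] where
  f : D →ₐ[ℂ] D
  ff : ∀ x, f (f x) = x

variable {D E : Type} [Ring D] [Algebra ℂ D] [Ring E] [Algebra ℂ E]

/-- The elements `a + b w + c ε + e ε w`. -/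
@[ext]
structure E4 (ω : Ivl D) : Type where
  a : D
  b : D
  c : D
  e : D

namespace E4

variable {ω : Ivl D}

/-- The components. -/
def eqv (ω : Ivl D) : E4 ω ≃ D × D × D × D where
  toFun x := (x.a, x.b, x.c, x.e)
  invFun x := ⟨x.1, x.2.1, x.2.2.1, x.2.2.2⟩

instance : AddCommGroup (E4 ω) := (eqv ω).addCommGroup

instance : Module ℂ (E4 ω) := (eqv ω).module ℂ

instance : One (E4 ω) := ⟨⟨1, 0, 0, 0⟩⟩

instance : Mul (E4 ω) := ⟨fun x y => ⟨x.a * y.a + x.b * ω.f y.b, x.a * y.b + x.b * ω.f y.a,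
  x.a * y.c - x.b * ω.f y.e + x.c * y.a + x.e * ω.f y.b,
  x.a * y.e - x.b * ω.f y.c + x.c * y.b + x.e * ω.f y.a⟩⟩

@[simp] theorem zero_a : (0 : E4 ω).a = 0 := rfl
@[simp] theorem zero_b : (0 : E4 ω).b = 0 := rfl
@[simp] theorem zero_c : (0 : E4 ω).c = 0 := rfl
@[simp] theorem zero_e : (0 : E4 ω).e = 0 := rfl
@[simp] theorem one_a : (1 : E4 ω).a = 1 := rfl
@[simp] theorem one_b : (1 : E4 ω).b = 0 := rfl
@[simp] theorem one_c : (1 : E4 ω).c = 0 := rfl
@[simp] theorem one_e : (1 : E4 ω).e = 0 := rfl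
@[simp] theorem add_a (x y : E4 ω) : (x + y).a = x.a + y.a := rfl
@[simp] theorem add_b (x y : E4 ω) : (x + y).b = x.b + y.b := rfl
@[simp] theorem add_c (x y : E4 ω) : (x + y).c = x.c + y.c := rfl
@[simp] theorem add_e (x y : E4 ω) : (x + y).e = x.e + y.e := rfl
@[simp] theorem neg_a (x : E4 ω) : (-x).a = -x.a := rfl
@[simp] theorem neg_b (x : E4 ω) : (-x).b = -x.b := rfl
@[simp] theorem neg_c (x : E4 ω) : (-x).c = -x.c := rfl
@[simp] theorem neg_e (x : E4 ω) : (-x).e = -x.e := rfl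
@[simp] theorem sub_a (x y : E4 ω) : (x - y).a = x.a - y.a := rfl
@[simp] theorem sub_b (x y : E4 ω) : (x - y).b = x.b - y.b := rfl
@[simp] theorem sub_c (x y : E4 ω) : (x - y).c = x.c - y.c := rfl
@[simp] theorem sub_e (x y : E4 ω) : (x - y).e = x.e - y.e := rfl
@[simp] theorem smul_a (r : ℂ) (x : E4 ω) : (r • x).a = r • x.a := rfl
@[simp] theorem smul_b (r : ℂ) (x : E4 ω) : (r • x).b = r • x.b := rfl
@[simp] theorem smul_c (r : ℂ) (x : E4 ω) : (r • x).c = r • x.c := rfl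
@[simp] theorem smul_e (r : ℂ) (x : E4 ω) : (r • x).e = r • x.e := rfl
@[simp] theorem mul_a (x y : E4 ω) : (x * y).a = x.a * y.a + x.b * ω.f y.b := rfl
@[simp] theorem mul_b (x y : E4 ω) : (x * y).b = x.a * y.b + x.b * ω.f y.a := rfl
@[simp] theorem mul_c (x y : E4 ω) :
    (x * y).c = x.a * y.c - x.b * ω.f y.e + x.c * y.a + x.e * ω.f y.b := rfl
@[simp] theorem mul_e (x y : E4 ω) :
    (x * y).e = x.a * y.e - x.b * ω.f y.c + x.c * y.b + x.e * ω.f y.a := rfl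

instance : Ring (E4 ω) where
  __ := (inferInstance : AddCommGroup (E4 ω))
  mul_assoc x y z := by
    ext <;> simp only [mul_a, mul_b, mul_c, mul_e, map_add, map_sub, map_mul, ω.ff] <;> noncomm_ring
  one_mul x := by ext <;> simp
  mul_one x := by ext <;> simp
  zero_mul x := by ext <;> simp
  mul_zero x := by ext <;> simp
  left_distrib x y z := by
    ext <;> simp only [mul_a, mul_b, mul_c, mul_e, add_a, add_b, add_c, add_e, map_add] <;>
      noncomm_ring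
  right_distrib x y z := by
    ext <;> simp only [mul_a, mul_b, mul_c, mul_e, add_a, add_b, add_c, add_e] <;> noncomm_ring

instance : Algebra ℂ (E4 ω) := Algebra.ofModule
  (fun r x y => by ext <;> simp [smul_add, smul_sub])
  (fun r x y => by ext <;> simp [smul_add, smul_sub])

variable (ω)

/-- The inclusion of `D`. -/
def io : D →ₐ[ℂ] E4 ω := AlgHom.ofLinearMap
  { toFun := fun x => ⟨x, 0, 0, 0⟩
    map_add' := fun x y => by ext <;> simp
    map_smul' := fun r x => by ext <;> simp } rfl fun x y => by ext <;> simp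

/-- The involution. -/
def w : E4 ω := ⟨0, 1, 0, 0⟩

/-- The odd generator. -/
def ep : E4 ω := ⟨0, 0, 1, 0⟩

theorem io_apply (x : D) : io ω x = ⟨x, 0, 0, 0⟩ := rfl

theorem w_w : w ω * w ω = 1 := by ext <;> simp [w]

theorem ep_ep : ep ω * ep ω = 0 := by ext <;> simp [ep]

theorem w_ep : w ω * ep ω = -(ep ω * w ω) := by ext <;> simp [w, ep]

theorem w_io (x : D) : w ω * io ω x = io ω (ω.f x) * w ω := by ext <;> simp [w, io_apply]

theorem ep_io (x : D) : ep ω * io ω x = io ω x * ep ω := by ext <;> simp [ep, io_apply]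

variable {ω}

theorem dec (x : E4 ω) :
    x = io ω x.a + io ω x.b * w ω + io ω x.c * ep ω + io ω x.e * (ep ω * w ω) := by
  ext <;> simp [w, ep, io_apply]

theorem io_mul (r : D) (x : E4 ω) : io ω r * x = ⟨r * x.a, r * x.b, r * x.c, r * x.e⟩ := by
  ext <;> simp [io_apply]

theorem mul_io (x : E4 ω) (r : D) :
    x * io ω r = ⟨x.a * r, x.b * ω.f r, x.c * r, x.e * ω.f r⟩ := by
  ext <;> simp [io_apply]

theorem ind {P : E4 ω → Prop} (hi : ∀ x, P (io ω x)) (hw : P (w ω)) (he : P (ep ω))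
    (add : ∀ x y, P x → P y → P (x + y)) (mul : ∀ x y, P x → P y → P (x * y)) (x : E4 ω) :
    P x := by
  rw [x.dec]
  exact add _ _ (add _ _ (add _ _ (hi _) (mul _ _ (hi _) hw)) (mul _ _ (hi _) he))
    (mul _ _ (hi _) (mul _ _ he hw))

theorem hom_ext {φ ψ : E4 ω →ₐ[ℂ] E} (hi : ∀ x, φ (io ω x) = ψ (io ω x))
    (hw : φ (w ω) = ψ (w ω)) (he : φ (ep ω) = ψ (ep ω)) : φ = ψ :=
  AlgHom.ext fun x => ind (P := fun x => φ x = ψ x) hi hw he
    (fun x y hx hy => by rw [map_add, map_add, hx, hy])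
    (fun x y hx hy => by rw [map_mul, map_mul, hx, hy]) x

/-- The relations of the generators. -/
structure Rel (ω : Ivl D) (φ : D →ₐ[ℂ] E) (W P : E) : Prop where
  ww : W * W = 1
  pp : P * P = 0
  wp : W * P = -(P * W)
  wi : ∀ x, W * φ x = φ (ω.f x) * W
  pi : ∀ x, P * φ x = φ x * P

/-- The universal property. -/
def lift (φ : D →ₐ[ℂ] E) (W P : E) (h : Rel ω φ W P) : E4 ω →ₐ[ℂ] E := AlgHom.ofLinearMap
  { toFun := fun x => φ x.a + φ x.b * W + φ x.c * P + φ x.e * (P * W)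
    map_add' := fun x y => by
      simp only [add_a, add_b, add_c, add_e, map_add]; noncomm_ring
    map_smul' := fun r x => by simp [smul_add] } (by simp) fun x y => by
    have h1 : ∀ x z, W * (φ x * z) = φ (ω.f x) * (W * z) := fun x z => by
      rw [← mul_assoc, h.wi, mul_assoc]
    have h2 : ∀ x z, P * (φ x * z) = φ x * (P * z) := fun x z => by
      rw [← mul_assoc, h.pi, mul_assoc]
    have h3 : ∀ z, W * (P * z) = -(P * (W * z)) := fun z => by
      rw [← mul_assoc, h.wp, neg_mul, mul_assoc]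
    have h4 : ∀ z, P * (P * z) = 0 := fun z => by rw [← mul_assoc, h.pp, zero_mul]
    simp only [LinearMap.coe_mk, AddHom.coe_mk, mul_a, mul_b, mul_c, mul_e, map_add, map_sub,
      map_mul, mul_add, add_mul, sub_mul, mul_assoc, h1, h2, h3, h4, h.ww, h.pp, h.wp, h.wi, h.pi,
      mul_one, mul_neg, mul_zero, neg_zero]
    abel

theorem lift_apply (φ : D →ₐ[ℂ] E) (W P : E) (h : Rel ω φ W P) (x : E4 ω) :
    lift φ W P h x = φ x.a + φ x.b * W + φ x.c * P + φ x.e * (P * W) := rfl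

theorem lift_io (φ : D →ₐ[ℂ] E) (W P : E) (h : Rel ω φ W P) (x : D) :
    lift φ W P h (io ω x) = φ x := by simp [lift_apply, io_apply]

theorem lift_w (φ : D →ₐ[ℂ] E) (W P : E) (h : Rel ω φ W P) : lift φ W P h (w ω) = W := by
  simp [lift_apply, w]

theorem lift_ep (φ : D →ₐ[ℂ] E) (W P : E) (h : Rel ω φ W P) : lift φ W P h (ep ω) = P := by
  simp [lift_apply, ep]

/-- The functoriality. -/
def map {ω' : Ivl E} (φ : D →ₐ[ℂ] E) (h : ∀ x, φ (ω.f x) = ω'.f (φ x)) : E4 ω →ₐ[ℂ] E4 ω' :=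
  AlgHom.ofLinearMap
    { toFun := fun x => ⟨φ x.a, φ x.b, φ x.c, φ x.e⟩
      map_add' := fun x y => by ext <;> simp
      map_smul' := fun r x => by ext <;> simp } (by ext <;> simp) fun x y => by ext <;> simp [h]

theorem map_apply {ω' : Ivl E} (φ : D →ₐ[ℂ] E) (h : ∀ x, φ (ω.f x) = ω'.f (φ x)) (x : E4 ω) :
    map φ h x = ⟨φ x.a, φ x.b, φ x.c, φ x.e⟩ := rfl

theorem map_io {ω' : Ivl E} (φ : D →ₐ[ℂ] E) (h : ∀ x, φ (ω.f x) = ω'.f (φ x)) (x : D) :
    map φ h (io ω x) = io ω' (φ x) := by ext <;> simp [map_apply, io_apply]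

theorem map_w {ω' : Ivl E} (φ : D →ₐ[ℂ] E) (h : ∀ x, φ (ω.f x) = ω'.f (φ x)) :
    map φ h (w ω) = w ω' := by ext <;> simp [map_apply, w]

theorem map_ep {ω' : Ivl E} (φ : D →ₐ[ℂ] E) (h : ∀ x, φ (ω.f x) = ω'.f (φ x)) :
    map φ h (ep ω) = ep ω' := by ext <;> simp [map_apply, ep]

variable (ω)

/-- The even part, as a projector. -/
def p0 : E4 ω →ₗ[ℂ] E4 ω where
  toFun x := ⟨x.a, x.b, 0, 0⟩
  map_add' x y := by ext <;> simp
  map_smul' r x := by ext <;> simp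

/-- The odd part, as a projector. -/
def p1 : E4 ω →ₗ[ℂ] E4 ω where
  toFun x := ⟨0, 0, x.c, x.e⟩
  map_add' x y := by ext <;> simp
  map_smul' r x := by ext <;> simp

/-- The grading. -/
def gr (m : ℤ) : Submodule ℂ (E4 ω) where
  carrier := {x | (m ≠ 0 → x.a = 0 ∧ x.b = 0) ∧ (m ≠ -1 → x.c = 0 ∧ x.e = 0)}
  add_mem' hx hy := ⟨fun h => by simp [hx.1 h, hy.1 h], fun h => by simp [hx.2 h, hy.2 h]⟩
  zero_mem' := ⟨fun _ => ⟨rfl, rfl⟩, fun _ => ⟨rfl, rfl⟩⟩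
  smul_mem' r x hx := ⟨fun h => by simp [hx.1 h], fun h => by simp [hx.2 h]⟩

variable {ω}

theorem mem_gr {m : ℤ} {x : E4 ω} :
    x ∈ gr ω m ↔ (m ≠ 0 → x.a = 0 ∧ x.b = 0) ∧ (m ≠ -1 → x.c = 0 ∧ x.e = 0) := Iff.rfl

theorem gr_cases {m : ℤ} {x : E4 ω} (h : x ∈ gr ω m) :
    (m = 0 ∧ x.c = 0 ∧ x.e = 0) ∨ (m = -1 ∧ x.a = 0 ∧ x.b = 0) ∨ x = 0 := by
  by_cases h0 : m = 0
  · exact Or.inl ⟨h0, h.2 (by omega)⟩
  · by_cases h1 : m = -1
    · exact Or.inr (Or.inl ⟨h1, h.1 h0⟩)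
    · exact Or.inr (Or.inr (E4.ext (h.1 h0).1 (h.1 h0).2 (h.2 h1).1 (h.2 h1).2))

theorem io_mem (x : D) : io ω x ∈ gr ω 0 := ⟨fun h => absurd rfl h, fun _ => ⟨rfl, rfl⟩⟩

theorem w_mem : w ω ∈ gr ω 0 := ⟨fun h => absurd rfl h, fun _ => ⟨rfl, rfl⟩⟩

theorem ep_mem : ep ω ∈ gr ω (-1) := ⟨fun _ => ⟨rfl, rfl⟩, fun h => absurd rfl h⟩

variable (ω)

/-- The sign. -/
def sg : E4 ω →ₐ[ℂ] E4 ω := AlgHom.ofLinearMap
  { toFun := fun x => ⟨x.a, x.b, -x.c, -x.e⟩
    map_add' := fun x y => by ext <;> simp [add_comm]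
    map_smul' := fun r x => by ext <;> simp } (by ext <;> simp) fun x y => by
      ext <;> simp <;> abel

theorem sg_apply (x : E4 ω) : sg ω x = ⟨x.a, x.b, -x.c, -x.e⟩ := rfl

end E4

/-- The DG algebra `D[ε] ⋊ W` with the zero differential, `ε` in degree `-1`. -/
def Ext4 (ω : Ivl D) : DGA where
  R := E4 ω
  d := 0
  gr := E4.gr ω
  sg := E4.sg ω
  dd _ := rfl
  dgr _ _ _ := zero_mem _
  sg_gr m x hx := by
    rcases E4.gr_cases hx with ⟨rfl, h1, h2⟩ | ⟨rfl, h1, h2⟩ | rfl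
    · ext <;> simp [E4.sg_apply, h1, h2]
    · rw [show ((-1 : ℤ).negOnePow : ℤ) = -1 from rfl, neg_one_zsmul]
      ext <;> simp [E4.sg_apply, h1, h2]
    · simp
  leib a b := by simp
  mul_gr i k x y hx hy := by
    rcases E4.gr_cases hx with ⟨rfl, h1, h2⟩ | ⟨rfl, h1, h2⟩ | rfl <;>
      rcases E4.gr_cases hy with ⟨rfl, h3, h4⟩ | ⟨rfl, h3, h4⟩ | rfl <;>
      simp [E4.mem_gr, *]
  one_gr := E4.io_mem 1
  int := by
    refine Prj.internal (M := ⟨E4 ω, 0, fun _ => rfl, E4.gr ω, fun _ _ _ => zero_mem _⟩)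
      ⟨fun m => if m = 0 then E4.p0 ω else if m = -1 then E4.p1 ω else 0, ?_, ?_, ?_, ?_⟩
    · intro m x
      split_ifs with h0 h1
      · exact ⟨fun h => absurd h0 h, fun _ => ⟨rfl, rfl⟩⟩
      · exact ⟨fun _ => ⟨rfl, rfl⟩, fun h => absurd h1 h⟩
      · exact zero_mem _
    · intro m x hx
      rcases E4.gr_cases hx with ⟨rfl, h1, h2⟩ | ⟨rfl, h1, h2⟩ | rfl
      · exact E4.ext rfl rfl h1.symm h2.symm
      · exact E4.ext h1.symm h2.symm rfl rfl
      · exact map_zero _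
    · intro m n hmn x hx
      rcases E4.gr_cases hx with ⟨rfl, h1, h2⟩ | ⟨rfl, h1, h2⟩ | rfl
      · rw [if_neg hmn.symm]
        split_ifs
        · exact E4.ext rfl rfl h1 h2
        · rfl
      · split_ifs with h0 h3
        · exact E4.ext h1 h2 rfl rfl
        · exact absurd h3.symm hmn
        · rfl
      · exact map_zero _
    · refine eq_top_iff.2 fun x _ => ?_
      have e : x = E4.p0 ω x + E4.p1 ω x := by ext <;> simp [E4.p0, E4.p1]
      rw [e]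
      exact add_mem (Submodule.mem_iSup_of_mem 0 ⟨fun h => absurd rfl h, fun _ => ⟨rfl, rfl⟩⟩)
        (Submodule.mem_iSup_of_mem (-1) ⟨fun _ => ⟨rfl, rfl⟩, fun h => absurd rfl h⟩)

/-- The functoriality. -/
def Ext4.map {ω : Ivl D} {ω' : Ivl E} (φ : D →ₐ[ℂ] E) (h : ∀ x, φ (ω.f x) = ω'.f (φ x)) :
    AHom (Ext4 ω) (Ext4 ω') where
  f := E4.map φ h
  comm _ := map_zero _
  deg m x hx := ⟨fun h0 => ⟨(congrArg φ (hx.1 h0).1).trans (map_zero φ),
      (congrArg φ (hx.1 h0).2).trans (map_zero φ)⟩,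
    fun h0 => ⟨(congrArg φ (hx.2 h0).1).trans (map_zero φ),
      (congrArg φ (hx.2 h0).2).trans (map_zero φ)⟩⟩

end

end Vale.Agent.P286EX
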