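import Vale.Agent.P286EX10.Kash

/-!
# The ring of differential operators generated by commuting vector fields
-/

set_option linter.all false

namespace Vale.Agent.P286EX

noncomputable section

variable {O ι : Type} [CommRing O] [Algebra ℂ O] (δ : ι → Derivation ℂ O O)

/-- The relations. -/
inductive DRel : FreeAlgebra ℂ (O ⊕ ι) → FreeAlgebra ℂ (O ⊕ ι) → Prop
  | add (r s : O) : DRel (FreeAlgebra.ι ℂ (.inl (r + s)))
      (FreeAlgebra.ι ℂ (.inl r) + FreeAlgebra.ι ℂ (.inl s))
  | mul (r s : O) : DRel (FreeAlgebra.ι ℂ (.inl (r * s)))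
      (FreeAlgebra.ι ℂ (.inl r) * FreeAlgebra.ι ℂ (.inl s))
  | alg (c : ℂ) : DRel (FreeAlgebra.ι ℂ (.inl (algebraMap ℂ O c))) (algebraMap ℂ _ c)
  | pj (i : ι) (r : O) : DRel (FreeAlgebra.ι ℂ (.inr i) * FreeAlgebra.ι ℂ (.inl r))
      (FreeAlgebra.ι ℂ (.inl r) * FreeAlgebra.ι ℂ (.inr i) + FreeAlgebra.ι ℂ (.inl (δ i r)))
  | pp (i k : ι) : DRel (FreeAlgebra.ι ℂ (.inr i) * FreeAlgebra.ι ℂ (.inr k))
      (FreeAlgebra.ι ℂ (.inr k) * FreeAlgebra.ι ℂ (.inr i))

/-- The differential operators. -/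
def DO : Type := RingQuot (DRel δ)

namespace DO

instance : Ring (DO δ) := inferInstanceAs (Ring (RingQuot (DRel δ)))

instance : Algebra ℂ (DO δ) := inferInstanceAs (Algebra ℂ (RingQuot (DRel δ)))

/-- The quotient map. -/
def mk : FreeAlgebra ℂ (O ⊕ ι) →ₐ[ℂ] DO δ := RingQuot.mkAlgHom ℂ (DRel δ)

theorem rel {x y : FreeAlgebra ℂ (O ⊕ ι)} (h : DRel δ x y) : mk δ x = mk δ y :=
  RingQuot.mkAlgHom_rel ℂ h

/-- The functions. -/
def j : O →ₐ[ℂ] DO δ where
  toFun r := mk δ (FreeAlgebra.ι ℂ (.inl r))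
  map_one' := by
    have h := rel δ (DRel.alg 1)
    rwa [map_one, map_one, map_one] at h
  map_mul' r s := (rel δ (DRel.mul r s)).trans (map_mul _ _ _)
  map_zero' := by
    have h := rel δ (DRel.alg 0)
    rwa [map_zero, map_zero, map_zero] at h
  map_add' r s := (rel δ (DRel.add r s)).trans (map_add _ _ _)
  commutes' c := (rel δ (DRel.alg c)).trans ((mk δ).commutes c)

/-- The vector fields. -/
def p (i : ι) : DO δ := mk δ (FreeAlgebra.ι ℂ (.inr i))

theorem pj (i : ι) (r : O) : p δ i * j δ r = j δ r * p δ i + j δ (δ i r) := by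
  have h := rel δ (DRel.pj i r)
  rwa [map_mul, map_add, map_mul] at h

theorem pp (i k : ι) : p δ i * p δ k = p δ k * p δ i := by
  have h := rel δ (DRel.pp i k)
  rwa [map_mul, map_mul] at h

variable {δ} {E : Type} [Ring E] [Algebra ℂ E]

/-- The universal property. -/
def lift (φ : O →ₐ[ℂ] E) (q : ι → E) (h1 : ∀ i r, q i * φ r = φ r * q i + φ (δ i r))
    (h2 : ∀ i k, q i * q k = q k * q i) : DO δ →ₐ[ℂ] E :=
  RingQuot.liftAlgHom ℂ ⟨FreeAlgebra.lift ℂ (Sum.elim φ q), fun x y h => by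
    cases h <;> simp [h1, h2]⟩

theorem lift_mk (φ : O →ₐ[ℂ] E) (q : ι → E) (h1) (h2) (x : FreeAlgebra ℂ (O ⊕ ι)) :
    lift (δ := δ) φ q h1 h2 (mk δ x) = FreeAlgebra.lift ℂ (Sum.elim φ q) x :=
  RingQuot.liftAlgHom_mkAlgHom_apply ℂ _ _ x

theorem lift_j (φ : O →ₐ[ℂ] E) (q : ι → E) (h1) (h2) (r : O) :
    lift (δ := δ) φ q h1 h2 (j δ r) = φ r :=
  (lift_mk φ q h1 h2 _).trans (FreeAlgebra.lift_ι_apply _ _)

theorem lift_p (φ : O →ₐ[ℂ] E) (q : ι → E) (h1) (h2) (i : ι) :
    lift (δ := δ) φ q h1 h2 (p δ i) = q i :=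
  (lift_mk φ q h1 h2 _).trans (FreeAlgebra.lift_ι_apply _ _)

theorem ind {P : DO δ → Prop} (hj : ∀ r, P (j δ r)) (hp : ∀ i, P (p δ i))
    (add : ∀ x y, P x → P y → P (x + y)) (mul : ∀ x y, P x → P y → P (x * y)) (x : DO δ) :
    P x := by
  obtain ⟨y, rfl⟩ : ∃ y, mk δ y = x := RingQuot.mkAlgHom_surjective ℂ (DRel δ) x
  induction y using FreeAlgebra.induction with
  | grade0 c => rw [(mk δ).commutes, ← (j δ).commutes]; exact hj _
  | grade1 z =>
    cases z with
    | inl r => exact hj r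
    | inr i => exact hp i
  | mul x y hx hy => rw [map_mul]; exact mul _ _ hx hy
  | add x y hx hy => rw [map_add]; exact add _ _ hx hy

theorem hom_ext {φ ψ : DO δ →ₐ[ℂ] E} (hj : ∀ r, φ (j δ r) = ψ (j δ r))
    (hp : ∀ i, φ (p δ i) = ψ (p δ i)) : φ = ψ :=
  AlgHom.ext fun x => ind (P := fun x => φ x = ψ x) hj hp
    (fun x y hx hy => by rw [map_add, map_add, hx, hy])
    (fun x y hx hy => by rw [map_mul, map_mul, hx, hy]) x

variable (δ)

/-- The generators and relations. -/
def op : DOp O (DO δ) ι where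
  j := j δ
  p := p δ
  δ := δ
  pj := pj δ
  pp := pp δ
  gen := eq_top_iff.2 fun x _ => ind (fun r => Algebra.subset_adjoin (Or.inl ⟨r, rfl⟩))
    (fun i => Algebra.subset_adjoin (Or.inr ⟨i, rfl⟩)) (fun _ _ => add_mem) (fun _ _ => mul_mem) x

end DO

/-! ### Normal forms -/

namespace DOp

variable {D : Type} [Ring D] [Algebra ℂ D] (W : DOp O D ι)

/-- The commutative monoid generated by the vector fields. -/
def Mn : Type := Submonoid.closure (Set.range W.p)

instance : CommMonoid W.Mn := Submonoid.closureCommMonoidOfComm D (by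
  rintro _ ⟨i, rfl⟩ _ ⟨k, rfl⟩
  exact W.pp i k)

/-- The inclusion. -/
def vl : W.Mn →* D := (Submonoid.closure (Set.range W.p)).subtype

/-- The generator. -/
def pm (i : ι) : W.Mn := ⟨W.p i, Submonoid.subset_closure ⟨i, rfl⟩⟩

/-- The monomials in the vector fields. -/
def mon (α : ι →₀ ℕ) : D := W.vl (α.prod fun i n => W.pm i ^ n)

theorem mon_zero : W.mon 0 = 1 := by rw [mon, Finsupp.prod_zero_index, map_one]

theorem mon_add (α β : ι →₀ ℕ) : W.mon (α + β) = W.mon α * W.mon β := by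
  rw [mon, Finsupp.prod_add_index' (fun _ => pow_zero _) (fun _ => pow_add _), map_mul]
  rfl

theorem mon_single (i : ι) (n : ℕ) : W.mon (Finsupp.single i n) = W.p i ^ n := by
  rw [mon, Finsupp.prod_single_index (h := fun i n => W.pm i ^ n) (pow_zero _), map_pow]
  rfl

/-- The operator with given coefficients. -/
def nf : ((ι →₀ ℕ) →₀ O) →ₗ[ℂ] D :=
  Finsupp.lsum ℂ fun α => LinearMap.mulRight ℂ (W.mon α) ∘ₗ W.j.toLinearMap

theorem nf_single (α : ι →₀ ℕ) (r : O) : W.nf (Finsupp.single α r) = W.j r * W.mon α :=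
  Finsupp.lsum_single _ _ _ _

end DOp

/-- The action of the functions on the coefficients. -/
def rj (O ι : Type) [CommRing O] [Algebra ℂ O] : O →ₐ[ℂ] Module.End ℂ ((ι →₀ ℕ) →₀ O) :=
  Algebra.lsmul ℂ ℂ _

theorem rj_single (s : O) (α : ι →₀ ℕ) (r : O) :
    rj O ι s (Finsupp.single α r) = Finsupp.single α (s * r) := Finsupp.smul_single _ _ _

/-- The action of the vector fields on the coefficients. -/
def rp (i : ι) : Module.End ℂ ((ι →₀ ℕ) →₀ O) :=
  Finsupp.lmapDomain O ℂ (Finsupp.single i 1 + ·) + Finsupp.mapRange.linearMap (δ i).toLinearMap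

theorem rp_single (i : ι) (α : ι →₀ ℕ) (r : O) : rp δ i (Finsupp.single α r) =
    Finsupp.single (Finsupp.single i 1 + α) r + Finsupp.single α (δ i r) := by
  simp [rp, Finsupp.mapDomain_single]

theorem co_ext {V : Type} [AddCommGroup V] [Module ℂ V] {u v : ((ι →₀ ℕ) →₀ O) →ₗ[ℂ] V}
    (h : ∀ α r, u (Finsupp.single α r) = v (Finsupp.single α r)) : u = v :=
  Finsupp.lhom_ext h

theorem DOp.nf_rj {D : Type} [Ring D] [Algebra ℂ D] (W : DOp O D ι) (s : O)
    (v : (ι →₀ ℕ) →₀ O) : W.nf (rj O ι s v) = W.j s * W.nf v :=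
  LinearMap.congr_fun (co_ext (u := W.nf ∘ₗ rj O ι s) (v := LinearMap.mulLeft ℂ (W.j s) ∘ₗ W.nf)
    fun α r => by
      rw [LinearMap.comp_apply, rj_single, W.nf_single, LinearMap.comp_apply, W.nf_single,
        map_mul, mul_assoc, LinearMap.mulLeft_apply]) v

theorem DOp.nf_rp {D : Type} [Ring D] [Algebra ℂ D] (W : DOp O D ι) (i : ι)
    (v : (ι →₀ ℕ) →₀ O) : W.nf (rp W.δ i v) = W.p i * W.nf v :=
  LinearMap.congr_fun (co_ext (u := W.nf ∘ₗ rp W.δ i) (v := LinearMap.mulLeft ℂ (W.p i) ∘ₗ W.nf)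
    fun α r => by
      rw [LinearMap.comp_apply, rp_single, map_add, W.nf_single, W.nf_single, LinearMap.comp_apply,
        W.nf_single, LinearMap.mulLeft_apply, ← mul_assoc, W.pj, W.mon_add, W.mon_single, pow_one,
        add_mul, mul_assoc]) v

theorem DOp.nf_one {D : Type} [Ring D] [Algebra ℂ D] (W : DOp O D ι) :
    W.nf (Finsupp.single 0 1) = 1 := by rw [W.nf_single, map_one, W.mon_zero, mul_one]

/-- Every operator has a normal form. -/
theorem DOp.nf_surj {D : Type} [Ring D] [Algebra ℂ D] (W : DOp O D ι) :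
    Function.Surjective W.nf := fun x => by
  have key : ∀ x : D, ∀ v, ∃ v', W.nf v' = x * W.nf v := fun x => by
    induction x using W.ind with
    | hj r => exact fun v => ⟨_, W.nf_rj r v⟩
    | hp i => exact fun v => ⟨_, W.nf_rp i v⟩
    | add x y hx hy =>
      intro v
      obtain ⟨a, ha⟩ := hx v
      obtain ⟨b, hb⟩ := hy v
      exact ⟨a + b, by rw [map_add, ha, hb, add_mul]⟩
    | mul x y hx hy =>
      intro v
      obtain ⟨b, hb⟩ := hy v
      obtain ⟨a, ha⟩ := hx b
      exact ⟨a, by rw [ha, hb, mul_assoc]⟩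
  obtain ⟨v, hv⟩ := key x (Finsupp.single 0 1)
  exact ⟨v, by rw [hv, W.nf_one, mul_one]⟩

namespace DO

variable {δ} (hδ : ∀ i k r, δ i (δ k r) = δ k (δ i r))

/-- The regular representation. -/
def rep : DO δ →ₐ[ℂ] Module.End ℂ ((ι →₀ ℕ) →₀ O) :=
  lift (rj O ι) (rp δ) (fun i s => co_ext fun α r => by
      simp only [Module.End.mul_apply, LinearMap.add_apply, rj_single, rp_single, map_add,
        Derivation.leibniz, smul_eq_mul, Finsupp.single_add, mul_comm r, add_assoc])
    fun i k => co_ext fun α r => by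
      simp only [Module.End.mul_apply, rp_single, map_add, hδ i k, add_left_comm (Finsupp.single i 1)]
      abel

theorem rep_mon (α : ι →₀ ℕ) :
    rep hδ ((op δ).mon α) (Finsupp.single 0 1) = Finsupp.single α 1 := by
  have h1 : ∀ i n (β : ι →₀ ℕ), rep hδ (p δ i ^ n) (Finsupp.single β 1) =
      Finsupp.single (Finsupp.single i n + β) 1 := fun i n β => by
    induction n with
    | zero => simp
    | succ n ih =>
      rw [pow_succ', map_mul, Module.End.mul_apply, ih, rep, lift_p, rp_single,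
        Derivation.map_one_eq_zero, Finsupp.single_zero, add_zero, ← add_assoc,
        ← Finsupp.single_add, add_comm 1 n]
  induction α using Finsupp.induction with
  | zero => rw [DOp.mon_zero, map_one]; rfl
  | single_add i n β _ _ ih =>
    rw [DOp.mon_add, DOp.mon_single, map_mul, Module.End.mul_apply, ih]
    exact h1 i n β

theorem rep_nf (v : (ι →₀ ℕ) →₀ O) : rep hδ ((op δ).nf v) (Finsupp.single 0 1) = v := by
  induction v using Finsupp.induction_linear with
  | zero => rw [map_zero, map_zero]; rfl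
  | add x y hx hy => rw [map_add, map_add, LinearMap.add_apply, hx, hy]
  | single α r =>
    rw [DOp.nf_single, map_mul, Module.End.mul_apply, rep_mon]
    change rep hδ (j δ r) _ = _
    rw [rep, lift_j, rj_single, mul_one]

include hδ in
/-- The theorem of Poincare, Birkhoff and Witt. -/
theorem pbw : Function.Bijective (op δ).nf :=
  ⟨Function.LeftInverse.injective (g := fun x => rep hδ x (Finsupp.single 0 1)) (rep_nf hδ),
    (op δ).nf_surj⟩

/-- The action on the functions. -/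
def act : DO δ →ₐ[ℂ] Module.End ℂ O :=
  lift (Algebra.lsmul ℂ ℂ O) (fun i => (δ i).toLinearMap) (fun i s => LinearMap.ext fun r => by
      simp [mul_comm r]) fun i k => LinearMap.ext (hδ i k)

theorem act_j (s r : O) : act hδ (j δ s) r = s * r := by
  rw [act, lift_j]; rfl

theorem act_p (i : ι) (r : O) : act hδ (p δ i) r = δ i r := by
  rw [act, lift_p]; rfl

end DO

theorem DOp.reg {D : Type} [Ring D] [Algebra ℂ D] (W : DOp O D ι) (h : Function.Injective W.nf)
    {F : O} (hF : ∀ r, F * r = 0 → r = 0) {x : D} (hx : W.j F * x = 0) : x = 0 := by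
  obtain ⟨v, rfl⟩ := W.nf_surj x
  rw [← W.nf_rj, ← map_zero W.nf] at hx
  rw [show v = 0 from Finsupp.ext fun α => hF _ (congrArg (· α) (h hx)), map_zero]

theorem DOp.dvd_of {D : Type} [Ring D] [Algebra ℂ D] (W : DOp O D ι) (h : Function.Injective W.nf)
    {F r : O} (hr : W.j r ∈ W.rI F) : F ∣ r := by
  obtain ⟨x, e⟩ := hr
  obtain ⟨v, rfl⟩ := W.nf_surj x
  have e1 : W.nf (rj O ι F v) = W.nf (Finsupp.single 0 r) := by
    rw [W.nf_rj, W.nf_single, W.mon_zero, mul_one]; exact e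
  exact ⟨v 0, ((congrArg (· 0) (h e1)).trans Finsupp.single_eq_same).symm⟩

end

end Vale.Agent.P286EX
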