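import Mathlib

/-!
# The lemma of Kashiwara for a hypersurface, in terms of rings of differential operators
-/

set_option linter.all false

namespace Vale.Agent.P286EX

noncomputable section

/-- A ring `D` generated by a commutative ring `O` and elements `p i` with `[p i, r] = δ i r`. -/
structure DOp (O D ι : Type) [CommRing O] [Algebra ℂ O] [Ring D] [Algebra ℂ D] where
  j : O →ₐ[ℂ] D
  p : ι → D
  δ : ι → Derivation ℂ O O
  pj : ∀ i r, p i * j r = j r * p i + j (δ i r)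
  pp : ∀ i k, p i * p k = p k * p i
  gen : Algebra.adjoin ℂ (Set.range j ∪ Set.range p) = ⊤

namespace DOp

variable {O D ι : Type} [CommRing O] [Algebra ℂ O] [Ring D] [Algebra ℂ D] (W : DOp O D ι)

theorem jj (r s : O) : W.j r * W.j s = W.j s * W.j r := by rw [← map_mul, mul_comm, map_mul]

theorem ind {P : D → Prop} (hj : ∀ r, P (W.j r)) (hp : ∀ i, P (W.p i))
    (add : ∀ x y, P x → P y → P (x + y)) (mul : ∀ x y, P x → P y → P (x * y)) (x : D) : P x := by
  have hx : x ∈ Algebra.adjoin ℂ (Set.range W.j ∪ Set.range W.p) := W.gen ▸ Algebra.mem_top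
  induction hx using Algebra.adjoin_induction with
  | mem x hx =>
    rcases hx with ⟨r, rfl⟩ | ⟨i, rfl⟩
    · exact hj r
    · exact hp i
  | algebraMap c => rw [← W.j.commutes]; exact hj _
  | add x y _ _ hx hy => exact add x y hx hy
  | mul x y _ _ hx hy => exact mul x y hx hy

/-- The operators of order `< n`. -/
def fil : ℕ → Submodule ℂ D
  | 0 => ⊥
  | n + 1 => (LinearMap.range W.j.toLinearMap ⊔ fil n) ⊔
      ⨆ i, (fil n).map (LinearMap.mulRight ℂ (W.p i))

theorem fil_ind {n : ℕ} {P : D → Prop} (hj : ∀ r, P (W.j r)) (h0 : ∀ y ∈ W.fil n, P y)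
    (hp : ∀ i, ∀ y ∈ W.fil n, P (y * W.p i)) (add : ∀ x y, P x → P y → P (x + y)) {x : D}
    (hx : x ∈ W.fil (n + 1)) : P x := by
  obtain ⟨a, ha, b, hb, rfl⟩ := Submodule.mem_sup.1 hx
  obtain ⟨_, ⟨r, rfl⟩, c, hc, rfl⟩ := Submodule.mem_sup.1 ha
  refine add _ _ (add _ _ (hj r) (h0 c hc)) ?_
  clear hx ha
  induction hb using Submodule.iSup_induction' with
  | mem i x hx =>
    obtain ⟨y, hy, rfl⟩ := hx
    exact hp i y hy
  | zero => exact h0 0 (zero_mem _)
  | add x y _ _ hx hy => exact add x y hx hy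

theorem j_mem (n : ℕ) (r : O) : W.j r ∈ W.fil (n + 1) :=
  Submodule.mem_sup_left (Submodule.mem_sup_left ⟨r, rfl⟩)

theorem up {n : ℕ} {y : D} (h : y ∈ W.fil n) : y ∈ W.fil (n + 1) :=
  Submodule.mem_sup_left (Submodule.mem_sup_right h)

theorem mul_p {n : ℕ} {y : D} (h : y ∈ W.fil n) (i : ι) : y * W.p i ∈ W.fil (n + 1) :=
  Submodule.mem_sup_right (Submodule.mem_iSup_of_mem i ⟨y, h, rfl⟩)

theorem mono : Monotone W.fil := monotone_nat_of_le_succ fun _ _ h => W.up h

theorem j_mul {n : ℕ} (r : O) : ∀ {y : D}, y ∈ W.fil n → W.j r * y ∈ W.fil n := by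
  induction n with
  | zero => intro y h; rw [(Submodule.mem_bot ℂ).1 h, mul_zero]; exact zero_mem _
  | succ n ih =>
    intro y h
    refine W.fil_ind (P := fun y => W.j r * y ∈ W.fil (n + 1)) (fun s => ?_)
      (fun y hy => W.up (ih hy)) (fun i y hy => ?_) (fun x y hx hy => ?_) h
    · rw [← map_mul]; exact W.j_mem n _
    · rw [← mul_assoc]; exact W.mul_p (ih hy) i
    · rw [mul_add]; exact add_mem hx hy

theorem br_mem {n : ℕ} : ∀ (r : O) {y : D}, y ∈ W.fil (n + 1) →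
    y * W.j r - W.j r * y ∈ W.fil n := by
  induction n using Nat.strong_induction_on with
  | _ n ih =>
    intro r y h
    have h0 : ∀ (s : O), ∀ y ∈ W.fil n, y * W.j s - W.j s * y ∈ W.fil n ∧
        (y * W.j s - W.j s * y = 0 ∨ ∃ m, n = m + 1 ∧ y * W.j s - W.j s * y ∈ W.fil m) := by
      intro s y hy
      cases n with
      | zero => rw [(Submodule.mem_bot ℂ).1 hy]; simp
      | succ m => exact ⟨W.up (ih m (by omega) s hy), Or.inr ⟨m, rfl, ih m (by omega) s hy⟩⟩
    refine W.fil_ind (P := fun y => y * W.j r - W.j r * y ∈ W.fil n) (fun s => ?_)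
      (fun y hy => (h0 r y hy).1) (fun i y hy => ?_) (fun x y hx hy => ?_) h
    · rw [W.jj, sub_self]; exact zero_mem _
    · have e : y * W.p i * W.j r - W.j r * (y * W.p i) = (y * W.j r - W.j r * y) * W.p i +
          ((y * W.j (W.δ i r) - W.j (W.δ i r) * y) + W.j (W.δ i r) * y) := by
        rw [mul_assoc, W.pj]; noncomm_ring
      rw [e]
      refine add_mem ?_ (add_mem (h0 _ y hy).1 (W.j_mul _ hy))
      rcases (h0 r y hy).2 with h1 | ⟨m, rfl, h1⟩
      · rw [h1, zero_mul]; exact zero_mem _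
      · exact W.mul_p h1 i
    · have e : (x + y) * W.j r - W.j r * (x + y) =
          (x * W.j r - W.j r * x) + (y * W.j r - W.j r * y) := by noncomm_ring
      rw [e]; exact add_mem hx hy

theorem mul_j {n : ℕ} (r : O) {y : D} (h : y ∈ W.fil n) : y * W.j r ∈ W.fil n := by
  cases n with
  | zero => rw [(Submodule.mem_bot ℂ).1 h, zero_mul]; exact zero_mem _
  | succ n =>
    rw [← sub_add_cancel (y * W.j r) (W.j r * y)]
    exact add_mem (W.up (W.br_mem r h)) (W.j_mul r h)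

theorem mul_mem {m n : ℕ} {x : D} (hx : x ∈ W.fil m) :
    ∀ {y : D}, y ∈ W.fil (n + 1) → x * y ∈ W.fil (m + n) := by
  induction n with
  | zero =>
    intro y h
    refine W.fil_ind (P := fun y => x * y ∈ W.fil m) (fun s => W.mul_j s hx) (fun y hy => ?_)
      (fun i y hy => ?_) (fun a b ha hb => ?_) h
    · rw [(Submodule.mem_bot ℂ).1 hy, mul_zero]; exact zero_mem _
    · rw [(Submodule.mem_bot ℂ).1 hy, zero_mul, mul_zero]; exact zero_mem _
    · rw [mul_add]; exact add_mem ha hb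
  | succ n ih =>
    intro y h
    refine W.fil_ind (P := fun y => x * y ∈ W.fil (m + (n + 1)))
      (fun s => W.mono (by omega) (W.mul_j s hx)) (fun y hy => W.up (ih hy))
      (fun i y hy => ?_) (fun a b ha hb => ?_) h
    · rw [← mul_assoc]; exact W.mul_p (ih hy) i
    · rw [mul_add]; exact add_mem ha hb

theorem p_mem (i : ι) : W.p i ∈ W.fil 2 := by
  have h := W.mul_p (W.j_mem 0 1) i
  rwa [map_one, one_mul] at h

theorem exists_fil (x : D) : ∃ n, x ∈ W.fil (n + 1) := by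
  induction x using W.ind with
  | hj r => exact ⟨0, W.j_mem 0 r⟩
  | hp i => exact ⟨1, W.p_mem i⟩
  | add x y hx hy =>
    obtain ⟨m, hm⟩ := hx
    obtain ⟨n, hn⟩ := hy
    exact ⟨m + n, add_mem (W.mono (by omega) hm) (W.mono (by omega) hn)⟩
  | mul x y hx hy =>
    obtain ⟨m, hm⟩ := hx
    obtain ⟨n, hn⟩ := hy
    exact ⟨m + n, W.mono (by omega) (W.mul_mem hm hn)⟩

/-- The right ideal `F D`. -/
def rI (F : O) : Submodule ℂ D := LinearMap.range (LinearMap.mulLeft ℂ (W.j F))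

variable {W} {F : O}

theorem rI_mul {x : D} (h : x ∈ W.rI F) (y : D) : x * y ∈ W.rI F := by
  obtain ⟨z, rfl⟩ := h
  exact ⟨z * y, (mul_assoc _ _ _).symm⟩

theorem mul_rI {k x : D} (hk : k * W.j F = W.j F * k) (h : x ∈ W.rI F) : k * x ∈ W.rI F := by
  obtain ⟨z, rfl⟩ := h
  exact ⟨k * z, by
    change W.j F * (k * z) = k * (W.j F * z)
    rw [← mul_assoc, ← hk, mul_assoc]⟩

theorem F_mul (x : D) : W.j F * x ∈ W.rI F := ⟨x, rfl⟩

theorem nil_fil {n : ℕ} : ∀ {x : D}, x ∈ W.fil n → x * W.j F ^ n ∈ W.rI F := by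
  induction n with
  | zero => intro x h; rw [(Submodule.mem_bot ℂ).1 h, zero_mul]; exact zero_mem _
  | succ n ih =>
    intro x h
    have e : x * W.j F ^ (n + 1) =
        (x * W.j F - W.j F * x) * W.j F ^ n + W.j F * (x * W.j F ^ n) := by
      rw [pow_succ']; noncomm_ring
    rw [e]
    exact add_mem (ih (W.br_mem F h)) (F_mul _)

theorem nil (x : D) : ∃ n, x * W.j F ^ n ∈ W.rI F := by
  obtain ⟨n, h⟩ := W.exists_fil x
  exact ⟨_, nil_fil h⟩

section

variable {ν : D} {a : O} (hν : ν * W.j F = W.j F * ν + W.j (1 + a * F))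
include hν

theorem nu_pow (n : ℕ) : ν * W.j F ^ (n + 1) =
    W.j F ^ (n + 1) * ν + ((n + 1 : ℕ) : ℂ) • (W.j F ^ n + W.j F ^ (n + 1) * W.j a) := by
  have e : W.j (1 + a * F) = 1 + W.j F * W.j a := by rw [map_add, map_one, mul_comm, map_mul]
  induction n with
  | zero => rw [zero_add, pow_one, hν, e, pow_zero, Nat.cast_one, one_smul]
  | succ n ih =>
    have h1 : W.j F ^ (n + 1) * W.j a * W.j F = W.j F ^ (n + 1 + 1) * W.j a := by
      rw [mul_assoc, W.jj a F, ← mul_assoc, ← pow_succ]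
    rw [pow_succ _ (n + 1), ← mul_assoc, ih, add_mul, mul_assoc _ ν, hν, e, smul_mul_assoc, add_mul,
      h1, ← pow_succ, mul_add, mul_add, mul_one, ← mul_assoc, ← mul_assoc, ← pow_succ,
      Nat.cast_succ (n + 1), add_smul, one_smul]
    abel

theorem lead {n : ℕ} {x : D} (h : x * W.j F ^ (n + 1) ∈ W.rI F) :
    x * ν * W.j F ^ (n + 1) - ((n + 1 : ℕ) : ℂ) • (x * W.j F ^ n) ∈ W.rI F := by
  have e : x * ν * W.j F ^ (n + 1) - ((n + 1 : ℕ) : ℂ) • (x * W.j F ^ n) =
      x * W.j F ^ (n + 1) * ν + ((n + 1 : ℕ) : ℂ) • (x * W.j F ^ (n + 1) * W.j a) := by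
    rw [mul_assoc, nu_pow hν, mul_add, mul_smul_comm, mul_add, smul_add, ← mul_assoc, ← mul_assoc]
    abel
  rw [e]
  exact add_mem (rI_mul h _) (Submodule.smul_mem _ _ (rI_mul h _))

/-- `D = F D + D F`. -/
theorem kash_surj (x : D) : ∃ y z, x = W.j F * y + z * W.j F := by
  let S : Submodule ℂ D := W.rI F ⊔ LinearMap.range (LinearMap.mulRight ℂ (W.j F))
  have key : ∀ n (x : D), x * W.j F ^ n ∈ W.rI F → x ∈ S := by
    intro n
    induction n with
    | zero => intro x h; rw [pow_zero, mul_one] at h; exact Submodule.mem_sup_left h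
    | succ n ih =>
      intro x h
      have h1 : (x * W.j F * ν - (n : ℂ) • x) * W.j F ^ n ∈ W.rI F := by
        cases n with
        | zero =>
          rw [Nat.cast_zero, zero_smul, sub_zero, pow_zero, mul_one]
          exact rI_mul (by simpa using h) ν
        | succ n =>
          have h2 := lead hν (n := n) (x := x * W.j F) (by rwa [mul_assoc, ← pow_succ'])
          rwa [mul_assoc x _ (_ ^ _), ← pow_succ', ← smul_mul_assoc, ← sub_mul] at h2
      have h2 : x * W.j F * ν + x ∈ S := by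
        have e : x * W.j F * ν + x = (x * ν - x * W.j a) * W.j F := by
          rw [sub_mul, mul_assoc x ν, hν, map_add, map_one, map_mul]; noncomm_ring
        rw [e]
        exact Submodule.mem_sup_right ⟨_, rfl⟩
      have h3 := S.smul_mem ((n : ℂ) + 1)⁻¹ (sub_mem h2 (ih _ h1))
      rwa [show x * W.j F * ν + x - (x * W.j F * ν - (n : ℂ) • x) = ((n : ℂ) + 1) • x by
        rw [add_smul, one_smul]; abel, smul_smul, inv_mul_cancel₀ (Nat.cast_add_one_ne_zero n),
        one_smul] at h3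
  obtain ⟨n, h⟩ := nil (W := W) (F := F) x
  obtain ⟨_, ⟨y, rfl⟩, _, ⟨z, rfl⟩, e⟩ := Submodule.mem_sup.1 (key n x h)
  exact ⟨y, z, e.symm⟩

theorem kash_inj {y : D} (h : y * ν * W.j F ∈ W.rI F) : y ∈ W.rI F := by
  have key : ∀ n, y * W.j F ^ n ∈ W.rI F → y ∈ W.rI F := by
    intro n
    induction n with
    | zero => intro h; rwa [pow_zero, mul_one] at h
    | succ n ih =>
      intro h1
      have h2 : y * ν * W.j F ^ (n + 1) ∈ W.rI F := by
        rw [pow_succ', ← mul_assoc]; exact rI_mul h _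
      have h3 := (W.rI F).smul_mem ((n + 1 : ℕ) : ℂ)⁻¹ (sub_mem h2 (lead hν h1))
      rw [sub_sub_cancel, smul_smul, inv_mul_cancel₀ (Nat.cast_ne_zero.2 n.succ_ne_zero),
        one_smul] at h3
      exact ih h3
  obtain ⟨n, hn⟩ := nil (W := W) (F := F) y
  exact key n hn

end

/-- `D = K + F D + D ν`. -/
theorem kash_span (K : Subalgebra ℂ D) (hj : ∀ r, W.j r ∈ K) {τ ν : D} {a : O} (hτ : τ ∈ K)
    (hτ' : τ ∈ W.fil 2) (hb : ν * τ - τ * ν ∈ W.fil 2)
    (hp : ∀ i, ∃ α β, W.j (1 + a * F) * W.p i = W.j α * τ + W.j β * ν) (x : D) :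
    ∃ k ∈ K, ∃ z, x - k - z * ν ∈ W.rI F := by
  have key : ∀ n, ∀ x ∈ W.fil (n + 1), ∃ k ∈ K, ∃ z ∈ W.fil n, x - k - z * ν ∈ W.rI F := by
    intro n
    induction n with
    | zero =>
      intro x h
      refine W.fil_ind (P := fun x => ∃ k ∈ K, ∃ z ∈ W.fil 0, x - k - z * ν ∈ W.rI F)
        (fun r => ⟨_, hj r, 0, zero_mem _, by simp⟩) (fun y hy => ?_) (fun i y hy => ?_) ?_ h
      · exact ⟨0, zero_mem _, 0, zero_mem _, by simp [(Submodule.mem_bot ℂ).1 hy]⟩
      · exact ⟨0, zero_mem _, 0, zero_mem _, by simp [(Submodule.mem_bot ℂ).1 hy]⟩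
      · rintro x y ⟨k, hk, z, hz, e⟩ ⟨k', hk', z', hz', e'⟩
        exact ⟨k + k', add_mem hk hk', z + z', add_mem hz hz', by
          convert add_mem e e' using 1; noncomm_ring⟩
    | succ n ih =>
      have add : ∀ x y, (∃ k ∈ K, ∃ z ∈ W.fil (n + 1), x - k - z * ν ∈ W.rI F) →
          (∃ k ∈ K, ∃ z ∈ W.fil (n + 1), y - k - z * ν ∈ W.rI F) →
          ∃ k ∈ K, ∃ z ∈ W.fil (n + 1), x + y - k - z * ν ∈ W.rI F := by
        rintro x y ⟨k, hk, z, hz, e⟩ ⟨k', hk', z', hz', e'⟩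
        exact ⟨k + k', add_mem hk hk', z + z', add_mem hz hz', by
          convert add_mem e e' using 1; noncomm_ring⟩
      have low : ∀ y ∈ W.fil (n + 1), ∃ k ∈ K, ∃ z ∈ W.fil (n + 1), y - k - z * ν ∈ W.rI F :=
        fun y hy => by
          obtain ⟨k, hk, z, hz, e⟩ := ih y hy
          exact ⟨k, hk, z, W.up hz, e⟩
      intro x h
      refine W.fil_ind (P := fun x => ∃ k ∈ K, ∃ z ∈ W.fil (n + 1), x - k - z * ν ∈ W.rI F)
        (fun r => ⟨_, hj r, 0, zero_mem _, by simp⟩) low (fun i y hy => ?_) add h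
      obtain ⟨α, β, e⟩ := hp i
      obtain ⟨k, hk, z, hz, e1⟩ := ih _ (W.mul_j α hy)
      have e2 : y * W.p i = (z * (ν * τ - τ * ν) -
          (y * W.j a * W.j F - W.j F * (y * W.j a)) * W.p i) + (k * τ + (z * τ + y * W.j β) * ν +
            ((y * W.j α - k - z * ν) * τ - W.j F * (y * W.j a * W.p i))) := by
        have e3 : y * W.p i = y * (W.j α * τ + W.j β * ν) - y * W.j a * W.j F * W.p i := by
          rw [← e, map_add, map_one, map_mul]; noncomm_ring
        refine e3.trans ?_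
        noncomm_ring
      rw [e2]
      refine add _ _ (low _ (sub_mem (W.mul_mem hz hb)
        (W.mul_p (W.br_mem F (W.mul_j a hy)) i))) ⟨k * τ, K.mul_mem hk hτ, z * τ + y * W.j β,
          add_mem (W.mul_mem hz hτ') (W.mul_j β hy), ?_⟩
      convert sub_mem (rI_mul e1 τ) (F_mul (y * W.j a * W.p i)) using 1
      abel
  obtain ⟨n, h⟩ := W.exists_fil x
  obtain ⟨k, hk, z, -, e⟩ := key n x h
  exact ⟨k, hk, z, e⟩

/-- The idealiser of `F D` is `K + F D`. -/
theorem kash_ker (K : Subalgebra ℂ D) (hj : ∀ r, W.j r ∈ K) {τ ν : D} {a : O} (hτ : τ ∈ K)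
    (hτ' : τ ∈ W.fil 2) (hb : ν * τ - τ * ν ∈ W.fil 2)
    (hp : ∀ i, ∃ α β, W.j (1 + a * F) * W.p i = W.j α * τ + W.j β * ν)
    (hν : ν * W.j F = W.j F * ν + W.j (1 + a * F)) (hK : ∀ k ∈ K, k * W.j F = W.j F * k) {x : D}
    (h : x * W.j F ∈ W.rI F) : ∃ k ∈ K, x - k ∈ W.rI F := by
  obtain ⟨k, hk, z, e⟩ := kash_span K hj hτ hτ' hb hp x
  have h1 : z * ν * W.j F ∈ W.rI F := by
    have e1 : z * ν * W.j F = x * W.j F - W.j F * k - (x - k - z * ν) * W.j F := by
      rw [← hK k hk]; noncomm_ring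
    rw [e1]
    exact sub_mem (sub_mem h (F_mul _)) (rI_mul e _)
  refine ⟨k, hk, ?_⟩
  rw [← sub_add_cancel (x - k) (z * ν)]
  exact add_mem e (rI_mul (kash_inj hν h1) ν)

/-! ### One vector field -/

section One

variable {K : Type} [Ring K] [Algebra ℂ K] (U : DOp O K Unit)

theorem pow_br (s : O) (n : ℕ) : U.p () ^ (n + 1) * U.j s - U.j s * U.p () ^ (n + 1) -
    ((n + 1 : ℕ) : ℂ) • (U.j (U.δ () s) * U.p () ^ n) ∈ U.fil n := by
  have hp : ∀ n, U.p () ^ n ∈ U.fil (n + 1) := fun n => by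
    induction n with
    | zero => rw [pow_zero, ← map_one U.j]; exact U.j_mem 0 1
    | succ n ih => rw [pow_succ]; exact U.mul_p ih ()
  induction n with
  | zero => rw [zero_add, pow_one, U.pj]; simp
  | succ n ih =>
    have e : U.p () ^ (n + 1 + 1) * U.j s - U.j s * U.p () ^ (n + 1 + 1) -
        ((n + 1 + 1 : ℕ) : ℂ) • (U.j (U.δ () s) * U.p () ^ (n + 1)) =
        (U.p () ^ (n + 1) * U.j s - U.j s * U.p () ^ (n + 1) -
          ((n + 1 : ℕ) : ℂ) • (U.j (U.δ () s) * U.p () ^ n)) * U.p () +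
        (U.p () ^ (n + 1) * U.j (U.δ () s) - U.j (U.δ () s) * U.p () ^ (n + 1)) := by
      rw [pow_succ _ (n + 1), mul_assoc _ _ (U.j s), U.pj, Nat.cast_succ (n + 1), add_smul,
        one_smul, sub_mul, smul_mul_assoc, mul_assoc (U.j (U.δ () s)), ← pow_succ]
      noncomm_ring
    rw [e]
    exact add_mem (U.mul_p ih ()) (U.br_mem _ (hp (n + 1)))

theorem top_form {n : ℕ} : ∀ {x : K}, x ∈ U.fil (n + 1) →
    ∃ r, x - U.j r * U.p () ^ n ∈ U.fil n := by
  induction n with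
  | zero =>
    intro x h
    refine U.fil_ind (P := fun x => ∃ r, x - U.j r * U.p () ^ 0 ∈ U.fil 0)
      (fun r => ⟨r, by simp⟩) (fun y hy => ⟨0, by simpa using hy⟩) (fun i y hy => ⟨0, ?_⟩) ?_ h
    · simp [(Submodule.mem_bot ℂ).1 hy]
    · rintro x y ⟨r, e⟩ ⟨s, e'⟩
      exact ⟨r + s, by convert add_mem e e' using 1; rw [map_add]; noncomm_ring⟩
  | succ n ih =>
    intro x h
    refine U.fil_ind (P := fun x => ∃ r, x - U.j r * U.p () ^ (n + 1) ∈ U.fil (n + 1))
      (fun r => ⟨0, by simpa using U.j_mem n r⟩) (fun y hy => ⟨0, by simpa using hy⟩)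
      (fun i y hy => ?_) ?_ h
    · obtain ⟨r, e⟩ := ih hy
      exact ⟨r, by convert U.mul_p e () using 1; rw [sub_mul, mul_assoc, ← pow_succ]⟩
    · rintro x y ⟨r, e⟩ ⟨s, e'⟩
      exact ⟨r + s, by convert add_mem e e' using 1; rw [map_add]; noncomm_ring⟩

/-- `K ∩ F D = F K`. -/
theorem kash_cap (φ : K →ₐ[ℂ] D) (hφ : ∀ r, φ (U.j r) = W.j r)
    (h0 : ∀ r, W.j r ∈ W.rI F → F ∣ r) (h1 : ∀ r, (∀ s, F ∣ r * U.δ () s) → F ∣ r) {k : K}
    (h : φ k ∈ W.rI F) : k ∈ U.rI F := by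
  have top : ∀ n r, ∀ y ∈ U.fil n, φ (U.j r * U.p () ^ n + y) ∈ W.rI F → F ∣ r := by
    intro n
    induction n with
    | zero =>
      intro r y hy h
      rw [(Submodule.mem_bot ℂ).1 hy, add_zero, pow_zero, mul_one, hφ] at h
      exact h0 r h
    | succ n ih =>
      intro r y hy h
      refine h1 r fun s => ?_
      have h2 := sub_mem (rI_mul h (W.j s)) (mul_rI (W.jj s F) h)
      rw [← hφ, ← map_mul, ← map_mul, ← map_sub] at h2
      have e : (U.j r * U.p () ^ (n + 1) + y) * U.j s - U.j s * (U.j r * U.p () ^ (n + 1) + y) =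
          U.j (((n + 1 : ℕ) : ℂ) • (r * U.δ () s)) * U.p () ^ n +
          (U.j r * (U.p () ^ (n + 1) * U.j s - U.j s * U.p () ^ (n + 1) -
            ((n + 1 : ℕ) : ℂ) • (U.j (U.δ () s) * U.p () ^ n)) + (y * U.j s - U.j s * y)) := by
        rw [map_smul, map_mul, mul_add (U.j s), ← mul_assoc (U.j s), U.jj s r, mul_sub, mul_sub,
          mul_smul_comm, smul_mul_assoc]
        noncomm_ring
      rw [e] at h2
      have h3 := ih _ _ (add_mem (U.j_mul r (pow_br U s n)) (U.br_mem s hy)) h2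
      have h4 := h3.mul_left (algebraMap ℂ O ((n + 1 : ℕ) : ℂ)⁻¹)
      rwa [← Algebra.smul_def, smul_smul, inv_mul_cancel₀ (Nat.cast_ne_zero.2 n.succ_ne_zero),
        one_smul] at h4
  have key : ∀ n, ∀ k ∈ U.fil n, φ k ∈ W.rI F → k ∈ U.rI F := by
    intro n
    induction n with
    | zero => intro k hk _; rw [(Submodule.mem_bot ℂ).1 hk]; exact zero_mem _
    | succ n ih =>
      intro k hk h
      obtain ⟨r, e⟩ := top_form U hk
      obtain ⟨r', rfl⟩ := top n r _ e (by rwa [add_sub_cancel])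
      have h2 : U.j (F * r') * U.p () ^ n ∈ U.rI F := by rw [map_mul, mul_assoc]; exact F_mul _
      have h3 : φ (U.j (F * r') * U.p () ^ n) ∈ W.rI F := by
        rw [map_mul U.j, mul_assoc, map_mul, hφ]; exact F_mul _
      rw [← sub_add_cancel k (U.j (F * r') * U.p () ^ n)]
      exact add_mem (ih _ e (by rw [map_sub]; exact sub_mem h h3)) h2
  obtain ⟨n, hn⟩ := U.exists_fil k
  exact key _ k hn h

end One

end DOp

end

end Vale.Agent.P286EX
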