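import Vale.Agent.P286E99.DT
import Vale.Agent.P286EK.Kas

/-!
# The lemma of Kashiwara for the double covers
-/

set_option linter.all false

namespace Vale.Agent.P286EX.Nk

open CategoryTheory MvPolynomial Vale.Agent.P286E Vale.Agent.P286EK Vale.Agent.P286EU
  Vale.Agent.P286E99
open Vale.Agent.P286EI (DW wd wd_n_C wd_n_X wd_s_C wd_s_X wd_cm mv_ext)

noncomputable section

section Four

variable {D K U : Type} [Ring D] [Algebra ℂ D] [Ring K] [Algebra ℂ K] [Ring U] [Algebra ℂ U]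
  {ω : Ivl D} {ωK : Ivl K} {ωU : Ivl U} {F : D} {φ : K →ₐ[ℂ] D} {π : K →ₐ[ℂ] U}

theorem e4_reg (h : ∀ x, F * x = 0 → x = 0) (x : E4 ω) (e : E4.io ω F * x = 0) : x = 0 := by
  rw [E4.io_mul] at e
  exact E4.ext (h _ (congrArg E4.a e)) (h _ (congrArg E4.b e)) (h _ (congrArg E4.c e))
    (h _ (congrArg E4.e e))

theorem e4_a (hF : ω.f F = F) (h : ∀ x, ∃ a b, x = F * b + a * F) (x : E4 ω) :
    ∃ a b, x = E4.io ω F * b + a * E4.io ω F := by
  choose a b e using h
  refine ⟨⟨a x.a, a x.b, a x.c, a x.e⟩, ⟨b x.a, b x.b, b x.c, b x.e⟩, ?_⟩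
  rw [E4.io_mul, E4.mul_io, hF]
  exact E4.ext (e _) (e _) (e _) (e _)

theorem e4_cm (hF : ω.f F = F) (hφ) (h : ∀ k, φ k * F = F * φ k) (k : E4 ωK) :
    E4.map (ω' := ω) φ hφ k * E4.io ω F = E4.io ω F * E4.map φ hφ k := by
  rw [E4.io_mul, E4.mul_io, hF]
  exact E4.ext (h _) (h _) (h _) (h _)

theorem e4_b (hF : ω.f F = F) (hφ) (h : ∀ x y, x * F = F * y → ∃ k z, x = φ k + F * z)
    (x y : E4 ω) (e : x * E4.io ω F = E4.io ω F * y) :
    ∃ (k : E4 ωK) (z : E4 ω), x = E4.map φ hφ k + E4.io ω F * z := by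
  rw [E4.io_mul, E4.mul_io, hF] at e
  obtain ⟨k1, z1, e1⟩ := h _ _ (congrArg E4.a e)
  obtain ⟨k2, z2, e2⟩ := h _ _ (congrArg E4.b e)
  obtain ⟨k3, z3, e3⟩ := h _ _ (congrArg E4.c e)
  obtain ⟨k4, z4, e4⟩ := h _ _ (congrArg E4.e e)
  refine ⟨⟨k1, k2, k3, k4⟩, ⟨z1, z2, z3, z4⟩, ?_⟩
  rw [E4.io_mul]
  exact E4.ext e1 e2 e3 e4

theorem e4_c (hφ) (hπ) (h : ∀ k, π k = 0 ↔ ∃ z, φ k = F * z) (k : E4 ωK) :
    E4.map (ω' := ωU) π hπ k = 0 ↔ ∃ z, E4.map (ω' := ω) φ hφ k = E4.io ω F * z := by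
  constructor
  · intro e
    obtain ⟨z1, e1⟩ := (h _).1 (congrArg E4.a e)
    obtain ⟨z2, e2⟩ := (h _).1 (congrArg E4.b e)
    obtain ⟨z3, e3⟩ := (h _).1 (congrArg E4.c e)
    obtain ⟨z4, e4⟩ := (h _).1 (congrArg E4.e e)
    refine ⟨⟨z1, z2, z3, z4⟩, ?_⟩
    rw [E4.io_mul]
    exact E4.ext e1 e2 e3 e4
  · rintro ⟨z, e⟩
    rw [E4.io_mul] at e
    exact E4.ext ((h _).2 ⟨_, congrArg E4.a e⟩) ((h _).2 ⟨_, congrArg E4.b e⟩)
      ((h _).2 ⟨_, congrArg E4.c e⟩) ((h _).2 ⟨_, congrArg E4.e e⟩)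

theorem e4_sur (hπ) (h : Function.Surjective π) :
    Function.Surjective (E4.map (ω := ωK) (ω' := ωU) π hπ) := fun x => by
  choose g e using h
  exact ⟨⟨g x.a, g x.b, g x.c, g x.e⟩, E4.ext (e _) (e _) (e _) (e _)⟩

variable {O ι : Type} [CommRing O] [Algebra ℂ O] (W : DOp O D ι)

theorem vf_j (a b : O) (i k : ι) (r : O) : (W.j a * W.p i + W.j b * W.p k) * W.j r =
    W.j r * (W.j a * W.p i + W.j b * W.p k) + W.j (a * W.δ i r + b * W.δ k r) := by
  rw [add_mul, mul_assoc, mul_assoc, W.pj, W.pj, map_add, map_mul, map_mul, mul_add, mul_add,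
    mul_add, ← mul_assoc, ← mul_assoc, ← mul_assoc, ← mul_assoc, W.jj a, W.jj b]
  abel

theorem br1 (a b : O) (i k : ι) :
    W.j a * W.p i * (W.j b * W.p k) - W.j b * W.p k * (W.j a * W.p i) ∈ W.fil 2 := by
  have e : W.j a * W.p i * (W.j b * W.p k) - W.j b * W.p k * (W.j a * W.p i) =
      W.j a * (W.j (W.δ i b) * W.p k) - W.j b * (W.j (W.δ k a) * W.p i) := by
    rw [mul_assoc, mul_assoc, ← mul_assoc (W.p i), ← mul_assoc (W.p k), W.pj, W.pj, add_mul,
      add_mul, mul_add, mul_add, mul_assoc, mul_assoc, W.pp i k, ← mul_assoc (W.j a), W.jj a b,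
      mul_assoc]
    abel
  rw [e]
  exact sub_mem (W.j_mul _ (W.j_mul _ (W.p_mem k))) (W.j_mul _ (W.j_mul _ (W.p_mem i)))

theorem br2 (a b a' b' : O) (i k : ι) :
    (W.j a * W.p i + W.j b * W.p k) * (W.j a' * W.p i + W.j b' * W.p k) -
      (W.j a' * W.p i + W.j b' * W.p k) * (W.j a * W.p i + W.j b * W.p k) ∈ W.fil 2 := by
  convert add_mem (add_mem (br1 W a a' i i) (br1 W a b' i k))
    (add_mem (br1 W b a' k i) (br1 W b b' k k)) using 1
  simp only [add_mul, mul_add]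
  abel

end Four

section Chart

variable {A : Type} [CommRing A] [Algebra ℂ A] (pd : Derivation ℂ A A) (f : A)

/-- The equation `t² - f`. -/
def F0 : MvPolynomial Unit A := X () ^ 2 - C f

/-- One half of the derivative. -/
def hf : A := (2 : ℂ)⁻¹ • pd f

theorem two_hf : 2 * hf pd f = pd f := by
  rw [hf, two_mul, ← add_smul]
  norm_num

/-- The vector field `t p + (f'/2) d/dt`. -/
def td : Derivation ℂ (MvPolynomial Unit A) (MvPolynomial Unit A) :=
  (X () : MvPolynomial Unit A) • wd Unit pd none +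
    (C (hf pd f) : MvPolynomial Unit A) • wd Unit pd (some ())

theorem td_apply (r : MvPolynomial Unit A) :
    td pd f r = X () * wd Unit pd none r + C (hf pd f) * wd Unit pd (some ()) r := rfl

theorem td_C (z : A) : td pd f (C z) = X () * C (pd z) := by
  rw [td_apply, wd_n_C, wd_s_C, mul_zero, add_zero]

theorem td_X (a : Unit) : td pd f (X a) = C (hf pd f) := by
  rw [td_apply, wd_n_X, wd_s_X, if_pos rfl, mul_zero, zero_add, mul_one]

theorem n_F : wd Unit pd none (F0 f) = -C (pd f) := by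
  rw [F0, map_sub, sq, Derivation.leibniz, wd_n_X, wd_n_C, smul_zero, add_zero, zero_sub]

theorem s_F : wd Unit pd (some ()) (F0 f) = 2 * X () := by
  rw [F0, map_sub, sq, Derivation.leibniz, wd_s_X, wd_s_C, if_pos rfl, sub_zero, smul_eq_mul,
    mul_one, two_mul]

theorem td_F : td pd f (F0 f) = 0 := by
  rw [td_apply, n_F, s_F, ← two_hf, map_mul, map_ofNat]
  ring

/-- The involution `t ↦ -t`. -/
def sg (A : Type) [CommRing A] [Algebra ℂ A] : MvPolynomial Unit A →ₐ[ℂ] MvPolynomial Unit A :=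
  aevalTower (IsScalarTower.toAlgHom ℂ A _) fun a => -X a

theorem sg_C (z : A) : sg A (C z) = C z := aevalTower_C _ _ z

theorem sg_X (a : Unit) : sg A (X a) = -X a := aevalTower_X _ _ a

theorem sg_sg (r : MvPolynomial Unit A) : sg A (sg A r) = r :=
  AlgHom.congr_fun (mv_ext (φ := (sg A).comp (sg A)) (ψ := AlgHom.id ℂ _)
    (fun z => by simp [sg_C]) fun a => by simp [sg_X]) r

theorem sg_td (r : MvPolynomial Unit A) : sg A (td pd f r) = -td pd f (sg A r) := by
  induction r using MvPolynomial.induction_on with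
  | C z => rw [sg_C, td_C, map_mul, sg_C, sg_X, neg_mul]
  | add p q hp hq => simp only [map_add, hp, hq, neg_add]
  | mul_X p a hp =>
    simp only [Derivation.leibniz, smul_eq_mul, map_add, map_mul, map_neg, hp, sg_X, td_X, sg_C]
    ring

/-- The quotient map to the double cover. -/
def qq : MvPolynomial Unit A →ₐ[ℂ] Dc f := aevalTower (Dc.of f) fun _ => Dc.t f

theorem qq_C (z : A) : qq f (C z) = Dc.of f z := aevalTower_C _ _ z

theorem qq_X (a : Unit) : qq f (X a) = Dc.t f := aevalTower_X _ _ a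

theorem qq_F : qq f (F0 f) = 0 := by rw [F0, map_sub, map_pow, qq_X, qq_C, Dc.t_sq, sub_self]

theorem qq_td (r : MvPolynomial Unit A) : qq f (td pd f r) = dcD f pd (qq f r) := by
  induction r using MvPolynomial.induction_on with
  | C z => rw [qq_C, td_C, map_mul, qq_C, qq_X, dcD_of]
  | add p q hp hq => simp only [map_add, hp, hq]
  | mul_X p a hp =>
    simp only [Derivation.leibniz, smul_eq_mul, map_add, map_mul, hp, qq_X, td_X, qq_C, dcD_t, hf,
      map_smul]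

theorem qq_sg (r : MvPolynomial Unit A) : qq f (sg A r) = dcW f (qq f r) :=
  AlgHom.congr_fun (mv_ext (φ := (qq f).comp (sg A)) (ψ := (dcW f).comp (qq f))
    (fun z => by simp [sg_C, qq_C, dcW_of]) fun a => by simp [sg_X, qq_X, dcW_t]) r

theorem qq_surj (x : Dc f) : ∃ r, qq f r = x := by
  obtain ⟨α, β, rfl⟩ := dc_rep x
  exact ⟨C α + C β * X (), by rw [map_add, map_mul, qq_C, qq_C, qq_X]⟩

theorem rep (r : MvPolynomial Unit A) : ∃ α β s, r = C α + C β * X () + F0 f * s := by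
  induction r using MvPolynomial.induction_on with
  | C z => exact ⟨z, 0, 0, by simp⟩
  | add p q hp hq =>
    obtain ⟨α, β, s, rfl⟩ := hp
    obtain ⟨α', β', s', rfl⟩ := hq
    exact ⟨α + α', β + β', s + s', by simp only [map_add]; ring⟩
  | mul_X p a hp =>
    obtain ⟨α, β, s, rfl⟩ := hp
    exact ⟨β * f, α, C β + s * X (), by simp only [map_mul, F0]; ring⟩

theorem qq_ker {r : MvPolynomial Unit A} (h : qq f r = 0) : F0 f ∣ r := by
  obtain ⟨α, β, s, rfl⟩ := rep f r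
  rw [map_add, map_add, map_mul, map_mul, qq_F, zero_mul, add_zero, qq_C, qq_C, qq_X] at h
  rw [(dc_free h).1, (dc_free h).2, map_zero, zero_mul, add_zero, zero_add]
  exact dvd_mul_right _ _

theorem F0_reg (r : MvPolynomial Unit A) (h : F0 f * r = 0) : r = 0 := by
  have h1 := congrArg (pUnitAlgEquiv A) h
  rw [map_mul, map_zero, F0, map_sub, map_pow] at h1
  have h2 : pUnitAlgEquiv A (X ()) = Polynomial.X := by simp [pUnitAlgEquiv]
  have h3 : pUnitAlgEquiv A (C f) = Polynomial.C f := by simp [pUnitAlgEquiv]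
  rw [h2, h3, (Polynomial.monic_X_pow_sub_C f two_ne_zero).mul_right_eq_zero_iff] at h1
  exact (pUnitAlgEquiv A).injective (h1.trans (map_zero _).symm)

variable {pd f}

theorem td_gen (hc : IsCoprime f (pd f)) (hg : ∀ J : Ideal A, (∀ z, pd z ∈ J) → (1 : A) ∈ J)
    (r : MvPolynomial Unit A) (h : ∀ s, F0 f ∣ r * td pd f s) : F0 f ∣ r := by
  let J : Ideal A :=
    { carrier := {z | F0 f ∣ r * X () * C z}
      add_mem' := fun {x y} hx hy => by
        rw [Set.mem_setOf_eq, map_add, mul_add]; exact dvd_add hx hy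
      zero_mem' := by simp
      smul_mem' := fun c x hx => by
        rw [Set.mem_setOf_eq, smul_eq_mul, map_mul, mul_left_comm]; exact Dvd.dvd.mul_left hx _ }
  have h1 : F0 f ∣ r * X () * C 1 := hg J fun z => by
    have := h (C z)
    rwa [td_C, ← mul_assoc] at this
  have h2 := h (X ())
  obtain ⟨a, b, e⟩ := hc
  have e1 := congrArg (C : A → MvPolynomial Unit A) e
  rw [← two_hf pd f] at e1
  simp only [map_add, map_mul, map_one, map_ofNat] at e1 h1
  rw [td_X] at h2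
  convert dvd_add (dvd_sub (h1.mul_left (C a * X ())) (dvd_mul_right (F0 f) (C a * r)))
    (h2.mul_left (C b * 2)) using 1
  rw [F0]
  linear_combination (-r) * e1

variable (pd f)

theorem relK (z : MvPolynomial Unit A) : -p1 (td pd f) * (j1 (td pd f)).comp (sg A) z =
    (j1 (td pd f)).comp (sg A) z * -p1 (td pd f) + (j1 (td pd f)).comp (sg A) (td pd f z) := by
  rw [AlgHom.comp_apply, AlgHom.comp_apply, neg_mul, p1_j1, sg_td, map_neg, mul_neg, neg_add]

/-- The involution. -/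
def omK : Ivl (D1 (td pd f)) where
  f := lift1 _ _ (relK pd f)
  ff := AlgHom.congr_fun (ext1 (φ := (lift1 _ _ (relK pd f)).comp (lift1 _ _ (relK pd f)))
    (ψ := AlgHom.id ℂ _) (fun a => by simp [lift1_j, sg_sg]) (by simp [lift1_p]))

theorem omK_j (r) : (omK pd f).f (j1 _ r) = j1 _ (sg A r) := lift1_j _ _ (relK pd f) r

theorem omK_p : (omK pd f).f (p1 _) = -p1 _ := lift1_p _ _ (relK pd f)

/-- The generators and relations. -/
abbrev WW : DOp (MvPolynomial Unit A) (D2 pd) (Option Unit) := dop (wd Unit pd)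

/-- The vector field as an operator. -/
def tau : D2 pd := (WW pd).j (X ()) * (WW pd).p none + (WW pd).j (C (hf pd f)) * (WW pd).p (some ())

theorem tau_eq : tau pd f = DW.y pd () * DW.du Unit pd + DW.cf Unit pd (hf pd f) * DW.d pd () := rfl

/-- The map to the idealiser. -/
def ph : D1 (td pd f) →ₐ[ℂ] D2 pd := lift1 (WW pd).j (tau pd f) (vf_j (WW pd) _ _ _ _)

theorem ph_j (r) : ph pd f (j1 _ r) = (WW pd).j r := lift1_j _ _ _ r

theorem ph_p : ph pd f (p1 _) = tau pd f := lift1_p _ _ _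

theorem wv_j (r : MvPolynomial Unit A) : (wv pd).f ((WW pd).j r) = (WW pd).j (sg A r) :=
  AlgHom.congr_fun (mv_ext (φ := (wv pd).f.comp (WW pd).j) (ψ := (WW pd).j.comp (sg A))
    (fun z => (wv_cf z).trans (congrArg (WW pd).j (sg_C z)).symm)
    fun a => (wv_y a).trans ((congrArg (WW pd).j (sg_X a)).trans (map_neg _ _)).symm) r

theorem ph_om (x) : ph pd f ((omK pd f).f x) = (wv pd).f (ph pd f x) :=
  AlgHom.congr_fun (ext1 (φ := (ph pd f).comp (omK pd f).f) (ψ := (wv pd).f.comp (ph pd f))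
    (fun r => by simp only [AlgHom.comp_apply, omK_j, ph_j, wv_j])
    (by simp only [AlgHom.comp_apply, omK_p, map_neg, ph_p, tau_eq, map_add, map_mul, wv_y, wv_du,
      wv_cf, wv_d, neg_mul, mul_neg, neg_add])) x

theorem ph_cm (k) : ph pd f k * (WW pd).j (F0 f) = (WW pd).j (F0 f) * ph pd f k := by
  induction k using ind1 with
  | h1 r => rw [ph_j]; exact (WW pd).jj _ _
  | h2 =>
    rw [ph_p]
    exact (vf_j (WW pd) _ _ _ _ _).trans ((congrArg (_ + (WW pd).j ·) (td_F pd f)).trans (by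
      rw [map_zero, add_zero]; rfl))
  | add x y hx hy => rw [map_add, add_mul, mul_add, hx, hy]
  | mul x y hx hy => rw [map_mul, mul_assoc, hy, ← mul_assoc, hx, mul_assoc]

theorem W_inj : Function.Injective (WW pd).nf := dop_inj (wd_cm pd)

variable {pd f}

theorem nu_F {a b : A} (e : a * f + b * pd f = 1) :
    ((WW pd).j (-C b) * (WW pd).p none + (WW pd).j (C ((2 : ℂ)⁻¹ • a) * X ()) * (WW pd).p (some ())) *
      (WW pd).j (F0 f) = (WW pd).j (F0 f) * ((WW pd).j (-C b) * (WW pd).p none +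
        (WW pd).j (C ((2 : ℂ)⁻¹ • a) * X ()) * (WW pd).p (some ())) + (WW pd).j (1 + C a * F0 f) := by
  refine (vf_j (WW pd) _ _ _ _ _).trans (congrArg (_ + (WW pd).j ·) ?_)
  have e1 := congrArg (C : A → MvPolynomial Unit A) e
  have e2 : (2 : A) * ((2 : ℂ)⁻¹ • a) = a := by rw [two_mul, ← add_smul]; norm_num
  have e3 := congrArg (C : A → MvPolynomial Unit A) e2
  simp only [map_add, map_mul, map_one, map_ofNat] at e1 e3
  rw [dop_δ, n_F, s_F, F0]
  linear_combination e1 + X () ^ 2 * e3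

theorem W_a (hc : IsCoprime f (pd f)) (x : D2 pd) :
    ∃ a b, x = (WW pd).j (F0 f) * b + a * (WW pd).j (F0 f) := by
  obtain ⟨a, b, e⟩ := hc
  obtain ⟨y, z, h⟩ := DOp.kash_surj (nu_F e) x
  exact ⟨z, y, h⟩

theorem W_b (hc : IsCoprime f (pd f)) (x y : D2 pd)
    (h : x * (WW pd).j (F0 f) = (WW pd).j (F0 f) * y) :
    ∃ k z, x = ph pd f k + (WW pd).j (F0 f) * z := by
  obtain ⟨a, b, e⟩ := hc
  have e1 := congrArg (C : A → MvPolynomial Unit A) e
  have e2 : (2 : A) * ((2 : ℂ)⁻¹ • a) = a := by rw [two_mul, ← add_smul]; norm_num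
  have e3 := congrArg (C : A → MvPolynomial Unit A) e2
  rw [← two_hf pd f] at e1
  simp only [map_add, map_mul, map_one, map_ofNat] at e1 e3
  have lin : ∀ α β a1 b1 a2 b2 : MvPolynomial Unit A,
      (WW pd).j α * ((WW pd).j a1 * (WW pd).p none + (WW pd).j b1 * (WW pd).p (some ())) +
      (WW pd).j β * ((WW pd).j a2 * (WW pd).p none + (WW pd).j b2 * (WW pd).p (some ())) =
      (WW pd).j (α * a1 + β * a2) * (WW pd).p none +
        (WW pd).j (α * b1 + β * b2) * (WW pd).p (some ()) := fun _ _ _ _ _ _ => by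
    simp only [map_add, map_mul, mul_add, add_mul, mul_assoc]
    abel
  obtain ⟨_, ⟨k, rfl⟩, z, e4⟩ := DOp.kash_ker (W := WW pd) (ph pd f).range
    (fun r => ⟨_, ph_j pd f r⟩) (τ := tau pd f) ⟨_, ph_p pd f⟩
    (add_mem ((WW pd).j_mul _ ((WW pd).p_mem _)) ((WW pd).j_mul _ ((WW pd).p_mem _)))
    (br2 (WW pd) _ _ _ _ _ _) (by
      rintro (_ | ⟨⟨⟩⟩)
      · refine ⟨C a * X (), -(2 * C (hf pd f)), Eq.symm ((lin _ _ _ _ _ _).trans ?_)⟩
        rw [show C a * X () * C (hf pd f) + -(2 * C (hf pd f)) * (C ((2 : ℂ)⁻¹ • a) * X ()) =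
          (0 : MvPolynomial Unit A) by linear_combination (-C (hf pd f) * X ()) * e3, map_zero,
          zero_mul, add_zero, F0]
        congr 2
        linear_combination e1
      · refine ⟨2 * C b, 2 * X (), Eq.symm ((lin _ _ _ _ _ _).trans ?_)⟩
        rw [show 2 * C b * X () + 2 * X () * -C b = (0 : MvPolynomial Unit A) by ring, map_zero,
          zero_mul, zero_add, F0]
        congr 2
        linear_combination e1 + X () ^ 2 * e3) (nu_F e)
    (by rintro _ ⟨k, rfl⟩; exact ph_cm pd f k) (x := x) ⟨y, h.symm⟩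
  exact ⟨k, z, (add_eq_of_eq_sub' e4).symm⟩

variable {U : Type} [Ring U] [Algebra ℂ U] (Wu : DOp (Dc f) U Unit) (hδ : Wu.δ () = dcD f pd)

include hδ in
theorem relU (r) : Wu.p () * Wu.j.comp (qq f) r =
    Wu.j.comp (qq f) r * Wu.p () + Wu.j.comp (qq f) (td pd f r) := by
  rw [AlgHom.comp_apply, AlgHom.comp_apply, Wu.pj, hδ, qq_td]

/-- The map to the operators on the double cover. -/
def pi0 : D1 (td pd f) →ₐ[ℂ] U := lift1 _ _ (relU Wu hδ)

theorem pi0_j (r) : pi0 Wu hδ (j1 _ r) = Wu.j (qq f r) := lift1_j _ _ (relU Wu hδ) r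

theorem pi0_p : pi0 Wu hδ (p1 _) = Wu.p () := lift1_p _ _ (relU Wu hδ)

theorem pi0_surj : Function.Surjective (pi0 Wu hδ) := fun x => by
  induction x using Wu.ind with
  | hj r =>
    obtain ⟨s, rfl⟩ := qq_surj f r
    exact ⟨_, pi0_j Wu hδ s⟩
  | hp i => exact ⟨_, pi0_p Wu hδ⟩
  | add x y hx hy => exact add_mem (s := (pi0 Wu hδ).range) hx hy
  | mul x y hx hy => exact mul_mem (s := (pi0 Wu hδ).range) hx hy

theorem pi0_om (ω : Ivl U) (h1 : ∀ r, ω.f (Wu.j r) = Wu.j (dcW f r)) (h2 : ω.f (Wu.p ()) = -Wu.p ())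
    (x) : pi0 Wu hδ ((omK pd f).f x) = ω.f (pi0 Wu hδ x) :=
  AlgHom.congr_fun (ext1 (φ := (pi0 Wu hδ).comp (omK pd f).f) (ψ := ω.f.comp (pi0 Wu hδ))
    (fun r => by simp only [AlgHom.comp_apply, omK_j, pi0_j, h1, qq_sg])
    (by simp only [AlgHom.comp_apply, omK_p, map_neg, pi0_p, h2])) x

/-- The operators on the double cover, over the polynomial ring. -/
def wq : DOp (MvPolynomial Unit A) U Unit where
  j := Wu.j.comp (qq f)
  p := Wu.p
  δ _ := td pd f
  pj _ := relU Wu hδ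
  pp := Wu.pp
  gen := eq_top_iff.2 (Wu.gen.ge.trans (Algebra.adjoin_mono (Set.union_subset_union_left _ (by
    rintro _ ⟨r, rfl⟩
    obtain ⟨s, rfl⟩ := qq_surj f r
    exact ⟨s, rfl⟩))))

theorem W_c (hc : IsCoprime f (pd f)) (hg : ∀ J : Ideal A, (∀ z, pd z ∈ J) → (1 : A) ∈ J)
    (hj : Function.Injective Wu.j) (k) :
    pi0 Wu hδ k = 0 ↔ ∃ z, ph pd f k = (WW pd).j (F0 f) * z := by
  constructor
  · intro h
    obtain ⟨z, rfl⟩ := DOp.kash_cap (W := wq Wu hδ) (F := F0 f) (DO.op fun _ : Unit => td pd f)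
      (pi0 Wu hδ) (pi0_j Wu hδ) (fun r ⟨z, e⟩ => qq_ker f (hj (e.symm.trans (by
        change Wu.j (qq f (F0 f)) * z = _
        rw [qq_F, map_zero, zero_mul])))) (td_gen hc hg) (k := k) (h ▸ zero_mem _)
    exact ⟨ph pd f z, (map_mul _ _ _).trans (congrArg (· * _) (ph_j pd f _))⟩
  · rintro ⟨z, e⟩
    obtain ⟨z, rfl⟩ := DOp.kash_cap (W := WW pd) (F := F0 f) (DO.op fun _ : Unit => td pd f)
      (ph pd f) (ph_j pd f) (fun r => (WW pd).dvd_of (W_inj pd)) (td_gen hc hg) (k := k) ⟨z, e.symm⟩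
    exact (map_mul _ _ _).trans ((congrArg (· * _) (pi0_j Wu hδ _)).trans (by
      rw [qq_F, map_zero, zero_mul]))

end Chart

end

end Vale.Agent.P286EX.Nk
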