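import Vale.Agent.P286EX10.Nk
import Vale.Agent.P286EA2.End2

/-!
# The equivalence of Kashiwara for the double covers
-/

set_option linter.all false

namespace Vale.Agent.P286EX.Nk

open CategoryTheory MvPolynomial Vale.Agent.P286E Vale.Agent.P286EK Vale.Agent.P286EU
  Vale.Agent.P286E99
open Vale.Agent.P286EI (DW wd mv_ext)

noncomputable section

section Chart

variable {A B : Type} [CommRing A] [Algebra ℂ A] [CommRing B] [Algebra ℂ B]
  {pd : Derivation ℂ A A} {pd' : Derivation ℂ B B}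

theorem jF (pd : Derivation ℂ A A) (f : A) :
    (WW pd).j (F0 f) = DW.y pd () ^ 2 - DW.cf Unit pd f := by
  rw [F0, map_sub, map_pow]; rfl

theorem kh (t : T1 pd pd') {f : A} {g : B} (h : t.κ f = t.c ^ 2 * g) :
    t.κ (hf pd f) * (t.c⁻¹ : Bˣ) = g * DW.lg pd' t.c + hf pd' g := by
  have h1 := t.hκ f
  have h2 := t.c.mul_inv
  have h3 : algebraMap ℂ B (2 : ℂ)⁻¹ * 2 = 1 := by
    rw [← map_ofNat (algebraMap ℂ B) 2, ← map_mul]
    norm_num
  rw [h, sq, Derivation.leibniz, Derivation.leibniz] at h1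
  simp only [hf, DW.lg, map_smul, Algebra.smul_def, Algebra.algebraMap_self, RingHom.id_apply,
    map_mul, AlgHom.commutes] at h1 ⊢
  linear_combination (-algebraMap ℂ B (2 : ℂ)⁻¹ * (t.c⁻¹ : Bˣ) ^ 2) * h1 +
    (g * (t.c⁻¹ : Bˣ) * pd' t.c) * h3 + (algebraMap ℂ B (2 : ℂ)⁻¹ * (pd' g * (t.c * (t.c⁻¹ : Bˣ) + 1) +
      2 * g * pd' t.c * (t.c⁻¹ : Bˣ) - t.κ (pd f) * (t.c⁻¹ : Bˣ))) * h2

theorem m2_tau (t : T1 pd pd') {f : A} {g : B} (h : t.κ f = t.c ^ 2 * g) :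
    t.m2 (tau pd f) = ph pd' g (P286E99.p1 _ + j1 _ (C t.l * X ())) +
      (DW.y pd' () ^ 2 - DW.cf Unit pd' g) * -(DW.cf Unit pd' (DW.lg pd' t.c) * DW.d pd' ()) := by
  have e0 : ∀ z x, DW.y pd' () * (DW.cf Unit pd' z * x) = DW.cf Unit pd' z * (DW.y pd' () * x) :=
    fun z x => by rw [← mul_assoc, DW.y_cf, mul_assoc]
  have e1 : ∀ x, DW.cf Unit pd' t.c * (DW.cf Unit pd' (t.c⁻¹ : Bˣ) * x) = x := fun x => by
    rw [← mul_assoc, ← map_mul, Units.mul_inv, map_one, one_mul]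
  have e2 : (WW pd').j (C t.l * X ()) = DW.cf Unit pd' t.l * DW.y pd' () := map_mul _ _ _
  rw [map_add (ph pd' g), ph_p, ph_j, e2, tau_eq, tau_eq, map_add, map_mul, map_mul, t.m2_y, t.m2_du,
    t.m2_cf, t.m2_d, Eu_eq, ← mul_assoc (DW.cf Unit pd' (t.κ _)), ← map_mul, kh t h, mul_assoc, e0,
    e1]
  simp only [mul_add, mul_sub, sub_mul, add_mul, mul_neg, map_add, map_mul, sq, mul_assoc, e0,
    DW.y_cf]
  abel

end Chart

variable {I : Type} [SmallCategory I] {D : CD I} (xd : XD D) (lam : ℂ) (k : ℤ)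

theorem gen_pd (i : I) (J : Ideal (D.C i)) (h : ∀ z, xd.pd i z ∈ J) : (1 : D.C i) ∈ J := by
  have h1 : ∀ ω ∈ Submodule.span (D.C i) (Set.range (KaehlerDifferential.D ℂ (D.C i))),
      (xd.pd i).liftKaehlerDifferential ω ∈ J := fun ω hω => by
    induction hω using Submodule.span_induction with
    | mem x hx =>
      obtain ⟨z, rfl⟩ := hx
      rw [Derivation.liftKaehlerDifferential_comp_D]
      exact h z
    | zero => rw [map_zero]; exact zero_mem _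
    | add x y _ _ hx hy => rw [map_add]; exact add_mem hx hy
    | smul c x _ hx => rw [map_smul]; exact J.smul_mem c hx
  rw [← xd.pd_om i]
  exact h1 _ (by rw [KaehlerDifferential.span_range_derivation]; trivial)

/-- The operators on the double cover. -/
def Wu (i : I) : DOp (Dc (D.f i)) (UD (xd.vfd.uk lam k) i) Unit := DO.op (uδ (xd.vfd.uk lam k) i)

theorem Wu_δ (i : I) : (Wu xd lam k i).δ () = dcD (D.f i) (xd.pd i) := rfl

theorem Wu_inj (i : I) : Function.Injective (Wu xd lam k i).j := fun r s h => by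
  have e := congrArg (fun x => DO.act (δ := uδ (xd.vfd.uk lam k) i) (fun _ _ _ => rfl) x 1) h
  exact (mul_one r).symm.trans (((DO.act_j _ _ _).symm.trans (e.trans (DO.act_j _ _ _))).trans
    (mul_one s))

/-- The map to the operators on the double cover. -/
def pu (i : I) : D1 (td (xd.pd i) (D.f i)) →ₐ[ℂ] UD (xd.vfd.uk lam k) i :=
  pi0 (Wu xd lam k i) (Wu_δ xd lam k i)

theorem pu_j (i : I) (r) : pu xd lam k i (j1 _ r) = (Wu xd lam k i).j (qq (D.f i) r) :=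
  pi0_j (Wu xd lam k i) (Wu_δ xd lam k i) r

theorem pu_p (i : I) : pu xd lam k i (P286E99.p1 _) = (Wu xd lam k i).p () :=
  pi0_p (Wu xd lam k i) (Wu_δ xd lam k i)

theorem pu_om (i : I) (x) :
    pu xd lam k i ((omK _ _).f x) = (uω (xd.vfd.uk lam k) i).f (pu xd lam k i x) :=
  pi0_om (Wu xd lam k i) (Wu_δ xd lam k i) (uω (xd.vfd.uk lam k) i) (uwf_j (xd.vfd.uk lam k) i)
    (uwf_p (xd.vfd.uk lam k) i) x

theorem ut_j {i j : I} (α : i ⟶ j) (r : Dc (D.f i)) :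
    uτ (xd.vfd.uk lam k) α ((Wu xd lam k i).j r) =
      (Wu xd lam k j).j (dcM (D.κ α) (D.c α) (D.κ_f α) r) := uτ_j (xd.vfd.uk lam k) α r

theorem ut_p {i j : I} (α : i ⟶ j) : uτ (xd.vfd.uk lam k) α ((Wu xd lam k i).p ()) =
    (Wu xd lam k j).p () + (Wu xd lam k j).j (Dc.of (D.f j) (xd.vfd.lz lam k α) * Dc.t (D.f j)) :=
  uτ_p (xd.vfd.uk lam k) α

theorem FT_eq (i : I) : FT xd.vfd i = (WW (xd.pd i)).j (F0 (D.f i)) := (jF _ _).symm

/-- The data of the lemma of Kashiwara. -/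
def nk : NK (tdT (cq xd.vfd lam k)) (UUD (xd.vfd.uk lam k)) where
  K i := Ext4 (omK (xd.pd i) (D.f i))
  φ i := Ext4.map (ph _ _) (ph_om _ _)
  π i := Ext4.map (pu xd lam k i) (pu_om xd lam k i)
  cm i := e4_cm (wv_FT (V := xd.vfd) i) (ph_om _ _) (FT_eq xd i ▸ ph_cm _ _)
  sur i := e4_sur (pu_om xd lam k i) (pi0_surj _ _)
  reg i := e4_reg (F := FT xd.vfd i) (FT_eq xd i ▸ fun _ => (WW _).reg (W_inj _) (F0_reg _))
  a i := e4_a (wv_FT (V := xd.vfd) i) (FT_eq xd i ▸ W_a (xd.cp i))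
  b i := e4_b (wv_FT (V := xd.vfd) i) (ph_om _ _) (FT_eq xd i ▸ W_b (xd.cp i))
  c i := e4_c (F := FT xd.vfd i) (ph_om _ _) (pu_om xd lam k i)
    (FT_eq xd i ▸ W_c _ _ (xd.cp i) (gen_pd xd i) (Wu_inj xd lam k i))

theorem nk_φ (i : I) (x) : ((nk xd lam k).φ i).f (E4.io (omK (xd.pd i) (D.f i)) x) =
    E4.io (wv (xd.pd i)) (ph (xd.pd i) (D.f i) x) := E4.map_io _ (ph_om (xd.pd i) (D.f i)) x

theorem nk_π (i : I) (x) : ((nk xd lam k).π i).f (E4.io (omK (xd.pd i) (D.f i)) x) =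
    E4.io (uω (xd.vfd.uk lam k) i) (pu xd lam k i x) := E4.map_io _ (pu_om xd lam k i) x

theorem ds_of {i j : I} (α : i ⟶ j) (x x') (u u' v v') (a1 : ((nk xd lam k).π i).f x = u)
    (a2 : ((nk xd lam k).π j).f x' = u') (a3 : ((UUD (xd.vfd.uk lam k)).τ α).f u = u')
    (b1 : ((nk xd lam k).φ i).f x = v) (b2 : ((nk xd lam k).φ j).f x' = v') (z)
    (b3 : ((DT (cq xd.vfd lam k)).τ α).f v = v' + ((tdT (cq xd.vfd lam k)).F j).x * z) :
    x ∈ (nk xd lam k).ds α :=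
  ((nk xd lam k).mem_ds α _).2 ⟨x', z, by rw [a1, a2, a3], by rw [b1, b2, b3]⟩

theorem ds_io {i j : I} (α : i ⟶ j) (x) (x') (z)
    (h1 : uτ (xd.vfd.uk lam k) α (pu xd lam k i x) = pu xd lam k j x')
    (h2 : ((cq xd.vfd lam k).t α).m2 (ph (xd.pd i) (D.f i) x) =
      ph (xd.pd j) (D.f j) x' + FT xd.vfd j * z) :
    E4.io (omK (xd.pd i) (D.f i)) x ∈ (nk xd lam k).ds α :=
  ds_of xd lam k α _ _ _ _ _ _ (nk_π xd lam k i x) (nk_π xd lam k j x')
    ((UU_io _ α _).trans (congrArg (E4.io (uω (xd.vfd.uk lam k) j)) h1)) (nk_φ xd lam k i x)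
    (nk_φ xd lam k j x') (E4.io (wv (xd.pd j)) z)
    ((DT_io (cq xd.vfd lam k) α _).trans ((congrArg (E4.io (wv (xd.pd j))) h2).trans
      ((map_add _ _ _).trans (congrArg (_ + ·) (map_mul (E4.io (wv (xd.pd j))) _ _)))))

theorem az {R : Type} [Ring R] (x y : R) : x = x + y * 0 := by rw [mul_zero, add_zero]

theorem ds_all {i j : I} (α : i ⟶ j) (x) : x ∈ (nk xd lam k).ds α := by
  have hC : ∀ z, E4.io (omK (xd.pd i) (D.f i)) (j1 _ (C z)) ∈ (nk xd lam k).ds α := fun z =>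
    ds_io xd lam k α _ (j1 _ (C (D.κ α z))) 0 (by rw [pu_j, pu_j, ut_j, qq_C, qq_C, dcM_of])
      (by rw [ph_j, ph_j, mul_zero, add_zero]; exact T1.m2_cf _ z)
  have hX : ∀ a, E4.io (omK (xd.pd i) (D.f i)) (j1 _ (X a)) ∈ (nk xd lam k).ds α := fun a =>
    ds_io xd lam k α _ (j1 _ (C (D.c α) * X a)) 0
      (by rw [pu_j, pu_j, ut_j, map_mul (qq _), qq_C, qq_X, qq_X, dcM_t])
      (by rw [ph_j, ph_j, mul_zero, add_zero, map_mul]; exact T1.m2_y _ a)
  refine E4.ind (ω := omK (xd.pd i) (D.f i)) (P := fun x => x ∈ (nk xd lam k).ds α) (fun y => ?_)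
    ?_ ?_ (fun _ _ => add_mem) (fun _ _ => mul_mem) x
  · refine ind1 (P := fun y => E4.io (omK (xd.pd i) (D.f i)) y ∈ (nk xd lam k).ds α) (fun r => ?_)
      ?_ (fun a b ha hb => by rw [map_add]; exact add_mem ha hb)
      (fun a b ha hb => by rw [map_mul]; exact mul_mem ha hb) y
    · induction r using MvPolynomial.induction_on with
      | C z => exact hC z
      | add p q hp hq => rw [map_add, map_add]; exact add_mem hp hq
      | mul_X p a hp => rw [map_mul, map_mul]; exact mul_mem hp (hX a)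
    · refine ds_io xd lam k α _ (P286E99.p1 _ + j1 _ (C ((cq xd.vfd lam k).l α) * X ())) _ ?_
        ((congrArg ((cq xd.vfd lam k).t α).m2 (ph_p _ _)).trans
          (m2_tau ((cq xd.vfd lam k).t α) (D.κ_f α)))
      rw [map_add (pu xd lam k j), pu_p, pu_p, pu_j, ut_p, map_mul (qq _), qq_C, qq_X, cq_lz]
  · exact ds_of xd lam k α _ (E4.w (omK (xd.pd j) (D.f j))) _ _ _ _ (E4.map_w _ (pu_om xd lam k i))
      (E4.map_w _ (pu_om xd lam k j)) (UU_w _ α) (E4.map_w _ (ph_om (xd.pd i) (D.f i)))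
      (E4.map_w _ (ph_om (xd.pd j) (D.f j))) 0
      ((DT_w (cq xd.vfd lam k) α).trans (az _ _))
  · exact ds_of xd lam k α _ (E4.ep (omK (xd.pd j) (D.f j))) _ _ _ _
      (E4.map_ep _ (pu_om xd lam k i)) (E4.map_ep _ (pu_om xd lam k j)) (UU_ep _ α)
      (E4.map_ep _ (ph_om (xd.pd i) (D.f i))) (E4.map_ep _ (ph_om (xd.pd j) (D.f j))) 0
      ((DT_ep (cq xd.vfd lam k) α).trans (az _ _))

/-- **The equivalence of Kashiwara.** -/
theorem kashk : EQV (wc (bT (cq xd.vfd lam k) xd.sm)) (wc (uBx xd lam k)) :=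
  (nk xd lam k).eqc (ds_all xd lam k) (b := baseT (cq xd.vfd lam k) xd.sm) (b' := uBx xd lam k) _ _
    fun i z => ⟨E4.io (omK (xd.pd i) (D.f i)) (j1 _ (C z)),
      ((nk_π xd lam k i _).trans (congrArg (E4.io (uω (xd.vfd.uk lam k) i))
        ((pu_j xd lam k i _).trans (congrArg (Wu xd lam k i).j (qq_C _ z))))).symm,
      ((nk_φ xd lam k i _).trans (congrArg (E4.io (wv (xd.pd i))) (ph_j _ _ _))).symm⟩

theorem kashc (c : ℂ) (h : (k : ℂ) = c) :
    EQV (wc (bT (cq xd.vfd lam c) xd.sm)) (wc (uBx xd lam k)) := by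
  subst h
  exact kashk xd lam k

theorem kash : P286EA2.KASH := fun _ _ _ xd lam => ⟨1, kashc xd lam 1 1 Int.cast_one⟩

end

end Vale.Agent.P286EX.Nk
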